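import Vale.Agent.P214.DIM.Cover

/-!
# P214, Target B, block B3-FIN: passage to `DIM.FlatPt`
-/

open Set Filter Topology MeasureTheory Metric
open scoped RealInnerProductSpace ContDiff

set_option linter.all false

namespace Vale.Agent.P214.BCS

variable {E : Type*} [NormedAddCommGroup E] [InnerProductSpace ℝ E] [FiniteDimensional ℝ E]

/-- if all points of `S` near `x` are close to `x + T`, and their projections to `T` are close to
the subspace `L ≤ T`, then `S` is flat at `x` -/
lemma flatPt_of_proj {d : ℕ} {T L : Submodule ℝ E} (hLT : L ≤ T) (hd : Module.finrank ℝ L ≤ d)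
    {S : Set E} {x : E} {t ρ : ℝ}
    (h1 : ∀ y ∈ S, dist y x ≤ t → ‖(y - x) - T.starProjection (y - x)‖ ≤ ρ / 2 * t)
    (h2 : ∀ y ∈ S, dist y x ≤ t → ‖(T.starProjection y - T.starProjection x) -
      L.starProjection (T.starProjection y - T.starProjection x)‖ ≤ ρ / 2 * t) :
    DIM.FlatPt d ρ t S x := by
  refine ⟨L, hd, fun y hy hyx => ?_⟩
  have e1 : L.starProjection (T.starProjection (y - x)) = L.starProjection (y - x) := by
    have h3 : y - x - T.starProjection (y - x) ∈ Lᗮ := by
      have h4 : y - x - T.starProjection (y - x) ∈ Tᗮ := T.sub_starProjection_mem_orthogonal _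
      exact Submodule.orthogonal_le hLT h4
    have h5 : L.starProjection (y - x - T.starProjection (y - x)) = 0 :=
      (Submodule.starProjection_apply_eq_zero_iff L).2 h3
    rw [map_sub, sub_eq_zero] at h5
    exact h5.symm
  have e2 : (y - x) - L.starProjection (y - x) =
      ((y - x) - T.starProjection (y - x)) + (T.starProjection (y - x) -
        L.starProjection (T.starProjection (y - x))) := by
    rw [e1]; abel
  rw [e2]
  have h3 := h1 y hy hyx
  have h4 := h2 y hy hyx
  rw [← map_sub T.starProjection y x] at h4
  calc _ ≤ _ := norm_add_le _ _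
    _ ≤ ρ / 2 * t + ρ / 2 * t := add_le_add h3 h4
    _ = ρ * t := by ring

end Vale.Agent.P214.BCS
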