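import Vale.Agent.P214.FM.Ident

/-!
# P214, block B3-LOW: lower bound of the directional energies by the excess

For an orthonormal basis `e` of `T` and a plane `S` of dimension `m`:
`eS ≤ 3 ∑ᵢ ‖(1 - P_S) Jm^* eᵢ‖² + 5 m κ² ‖co Y‖²` (`low_pt`).
-/

open Set Filter Topology MeasureTheory Metric
open scoped RealInnerProductSpace ContDiff

set_option linter.all false

namespace Vale.Agent.P214.BCS

open FV FM

variable {E : Type*} [NormedAddCommGroup E] [InnerProductSpace ℝ E] [FiniteDimensional ℝ E]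

/-- the Hilbert-Schmidt norm of the adjoint -/
lemma hs_adj (A : E →L[ℝ] E) : hs (adj A) = hs A := by
  have h1 : hs A = tr ((adj A).comp A) := hs_eq_tr fun v => by
    simp only [ContinuousLinearMap.comp_apply]
    rw [inner_adj_right]
  have h2 : hs (adj A) = tr (A.comp (adj A)) := hs_eq_tr fun v => by
    simp only [ContinuousLinearMap.comp_apply]
    rw [inner_adj_left]
  rw [h1, h2, tr_comp_comm]

lemma hs_comp_le_left (L A : E →L[ℝ] E) : hs (L.comp A) ≤ ‖L‖ ^ 2 * hs A := by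
  unfold hs
  rw [Finset.mul_sum]
  refine Finset.sum_le_sum fun k _ => ?_
  rw [← mul_pow]
  gcongr
  exact L.le_opNorm _

lemma hs_comp_le_right (A L : E →L[ℝ] E) : hs (A.comp L) ≤ hs A * ‖L‖ ^ 2 := by
  rw [← hs_adj (A.comp L), adj_comp]
  refine (hs_comp_le_left _ _).trans (le_of_eq ?_)
  rw [hs_adj, norm_adj, mul_comm]

/-- Parseval in `T` -/
lemma norm_sq_star_eq {T : Submodule ℝ E} {ι : Type*} [Fintype ι] (e : OrthonormalBasis ι ℝ T)
    (v : E) : ‖T.starProjection v‖ ^ 2 = ∑ i, ⟪(e i : E), v⟫ ^ 2 := by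
  have h1 := e.sum_sq_norm_inner_right (T.orthogonalProjection v)
  have h2 : ‖T.starProjection v‖ = ‖T.orthogonalProjection v‖ := rfl
  rw [h2, ← h1]
  refine Finset.sum_congr rfl fun i _ => ?_
  rw [Real.norm_eq_abs, sq_abs]
  congr 1
  show ⟪(e i : E), ((T.orthogonalProjection v : T) : E)⟫ = _
  have h3 : ((T.orthogonalProjection v : T) : E) = T.starProjection v := rfl
  rw [h3, ← inner_star, Submodule.starProjection_eq_self_iff.2 (e i).2]

/-- Hilbert-Schmidt norm of the restriction to `T` -/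
lemma hs_comp_star {T : Submodule ℝ E} {ι : Type*} [Fintype ι] (e : OrthonormalBasis ι ℝ T)
    (X : E →L[ℝ] E) : hs (X.comp T.starProjection) = ∑ i, ‖X (e i)‖ ^ 2 := by
  rw [← hs_adj, adj_comp, adj_star]
  unfold hs
  simp only [ContinuousLinearMap.comp_apply, norm_sq_star_eq e]
  rw [Finset.sum_comm]
  refine Finset.sum_congr rfl fun i _ => ?_
  rw [← (stdOrthonormalBasis ℝ E).sum_sq_norm_inner_right (X (e i))]
  refine Finset.sum_congr rfl fun k _ => ?_
  rw [inner_adj_right, Real.norm_eq_abs, sq_abs, real_inner_comm]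

variable [MeasurableSpace E] [BorelSpace E]
variable {T : Submodule ℝ E} {w : E → E} {ε κ h₁ : ℝ} {Y : E}

/-- `J₀^*` is the projection to the tangent plane on `T` -/
lemma adj_J0_eq (hw : Ref T w ε κ) (Y : E) {a : E} (ha : T.starProjection a = a) :
    adj (J0 w Y) a = PS T w Y a := by
  refine ext_inner_right ℝ fun v => ?_
  rw [inner_adj_left]
  conv_rhs => rw [← D0_J0 w Y v]
  have e1 : ⟪a, fderiv ℝ w Y (J0 w Y v)⟫ = 0 := by
    rw [← ha, inner_star, hw.star_fderiv, inner_zero_right]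
  rw [Ref.inner_PS, hw.PS_D0, D0_apply, hw.adj_fderiv_star, hw.fderiv_star, sub_zero,
    inner_add_right, ← inner_star, ha, e1, add_zero]

/-- `τ = P_S (D₀^* τ)` for tangent `τ` -/
lemma PS_adj_D0 (hw : Ref T w ε κ) (Y τ : E) :
    PS T w Y (T.starProjection (adj (D0 w Y) (PS T w Y τ))) = PS T w Y τ := by
  have h1 : T.starProjection (adj (D0 w Y) (PS T w Y τ)) = adj (D0 w Y) (PS T w Y τ) := by
    refine ext_inner_right ℝ fun v => ?_
    rw [inner_star, inner_adj_left, inner_adj_left, Ref.inner_PS, Ref.inner_PS, hw.PS_D0, hw.PS_D0,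
      star_self]
  rw [h1, ← adj_J0_eq hw Y h1]
  refine ext_inner_right ℝ fun v => ?_
  rw [inner_adj_left, inner_adj_left, D0_J0]

lemma norm_Jm_sub_J0 (H : Adm T w ε κ h₁) (hY : ‖co T Y‖ < h₁) (v : E) :
    ‖adj (Jm T w h₁ Y) v - adj (J0 w Y) v‖ ≤ 4 / 3 * (κ * ‖co T Y‖) * ‖v‖ := by
  have hk := H.ref.knn
  have h1 : ‖Jm T w h₁ Y - J0 w Y‖ ≤ 4 / 3 * (κ * ‖co T Y‖) := by
    refine ContinuousLinearMap.opNorm_le_bound _ (by positivity) fun u => ?_
    have e : (Jm T w h₁ Y - J0 w Y) u = Jm T w h₁ Y (Hw w Y (co T Y) (J0 w Y u)) := by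
      have h2 := H.Jm_Dm hY (J0 w Y u)
      rw [Dm_apply, D0_J0, map_sub] at h2
      have h3 : Jm T w h₁ Y u = J0 w Y u + Jm T w h₁ Y (Hw w Y (co T Y) (J0 w Y u)) :=
        sub_eq_iff_eq_add.1 h2
      exact sub_eq_of_eq_add' h3
    rw [e]
    calc _ ≤ 4 / 3 * ‖Hw w Y (co T Y) (J0 w Y u)‖ := H.norm_Jm_apply_le Y _
      _ ≤ 4 / 3 * (κ * ‖co T Y‖ * ‖J0 w Y u‖) := by
          gcongr; exact H.ref.norm_Hw_apply_le _ _ _
      _ ≤ 4 / 3 * (κ * ‖co T Y‖ * ‖u‖) := by gcongr; exact norm_J0_apply_le _ _ _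
      _ = _ := by ring
  have e2 : adj (Jm T w h₁ Y) v - adj (J0 w Y) v = adj (Jm T w h₁ Y - J0 w Y) v := by
    rw [map_sub]; rfl
  rw [e2]
  exact (norm_adj_apply_le _ _).trans (by gcongr)

/-- **[B3-LOW], pointwise.** -/
theorem low_pt (H : Adm T w ε κ h₁) (hY : ‖co T Y‖ < h₁) {S : Submodule ℝ E}
    (hS : Module.finrank ℝ S = Module.finrank ℝ T) {ι : Type*} [Fintype ι]
    (e : OrthonormalBasis ι ℝ T) :
    eS T w Y S.starProjection ≤
      3 * ∑ i, ‖adj (Jm T w h₁ Y) (e i) - S.starProjection (adj (Jm T w h₁ Y) (e i))‖ ^ 2 +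
        5 * (Fintype.card ι) * (κ * ‖co T Y‖) ^ 2 := by
  have hw := H.ref
  have hε : ε ≤ 1 / 16 := H.hε.trans eps0_le
  set R := planeOf T w Y with hR
  have hrk : Module.finrank ℝ S = Module.finrank ℝ R := by rw [hS, hw.finrank_planeOf]
  have h1 : eS T w Y S.starProjection = hs ((co S).comp R.starProjection) := by
    rw [hs_co_star, tr_defect_eq_tilt _ _ hrk]; rfl
  have h2 : (co S).comp R.starProjection =
      (((co S).comp (PS T w Y)).comp T.starProjection).comp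
        ((adj (D0 w Y)).comp (PS T w Y)) := by
    ext v
    show co S (PS T w Y v) = co S (PS T w Y (T.starProjection (adj (D0 w Y) (PS T w Y v))))
    rw [PS_adj_D0 hw]
  have hD : ‖(adj (D0 w Y)).comp (PS T w Y)‖ ≤ 9 / 8 := by
    refine ContinuousLinearMap.opNorm_le_bound _ (by norm_num) fun v => ?_
    have hD0 : ‖D0 w Y‖ ≤ 9 / 8 :=
      ContinuousLinearMap.opNorm_le_bound _ (by norm_num) fun v => hw.norm_D0_apply_le hε Y v
    calc ‖adj (D0 w Y) (PS T w Y v)‖ ≤ ‖D0 w Y‖ * ‖PS T w Y v‖ := norm_adj_apply_le _ _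
      _ ≤ 9 / 8 * ‖v‖ := by gcongr; exact norm_star_le _ v
  have h3 : hs ((co S).comp R.starProjection) ≤
      hs (((co S).comp (PS T w Y)).comp T.starProjection) * (9 / 8) ^ 2 := by
    rw [h2]
    refine (hs_comp_le_right _ _).trans ?_
    have := hs_nonneg (((co S).comp (PS T w Y)).comp T.starProjection)
    gcongr
  have h4 : hs (((co S).comp (PS T w Y)).comp T.starProjection) =
      ∑ i, ‖co S (PS T w Y (e i))‖ ^ 2 := hs_comp_star e _
  have h5 : ∀ i, ‖co S (PS T w Y (e i))‖ ^ 2 ≤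
      2 * ‖adj (Jm T w h₁ Y) (e i) - S.starProjection (adj (Jm T w h₁ Y) (e i))‖ ^ 2 +
        32 / 9 * (κ * ‖co T Y‖) ^ 2 := by
    intro i
    have hei : T.starProjection (e i : E) = e i := Submodule.starProjection_eq_self_iff.2 (e i).2
    have hn : ‖(e i : E)‖ = 1 := e.orthonormal.1 i
    have e1 : PS T w Y (e i) = adj (Jm T w h₁ Y) (e i) -
        (adj (Jm T w h₁ Y) (e i) - adj (J0 w Y) (e i)) := by
      rw [adj_J0_eq hw Y hei]; abel
    have b1 := norm_Jm_sub_J0 H hY (e i : E)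
    rw [hn, mul_one] at b1
    have b2 : ‖co S (adj (Jm T w h₁ Y) (e i) - adj (J0 w Y) (e i))‖ ≤ 4 / 3 * (κ * ‖co T Y‖) :=
      (norm_co_le _ _).trans b1
    have b3 : ‖co S (PS T w Y (e i))‖ ≤ ‖co S (adj (Jm T w h₁ Y) (e i))‖ +
        4 / 3 * (κ * ‖co T Y‖) := by
      rw [e1, map_sub]
      exact (norm_sub_le _ _).trans (by gcongr)
    have b4 : adj (Jm T w h₁ Y) (e i) - S.starProjection (adj (Jm T w h₁ Y) (e i)) =
        co S (adj (Jm T w h₁ Y) (e i)) := (co_apply _ _).symm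
    rw [b4]
    have hk := hw.knn
    have b5 : 0 ≤ 4 / 3 * (κ * ‖co T Y‖) := by positivity
    calc _ ≤ (‖co S (adj (Jm T w h₁ Y) (e i))‖ + 4 / 3 * (κ * ‖co T Y‖)) ^ 2 := by gcongr
      _ ≤ _ := by nlinarith [sq_nonneg (‖co S (adj (Jm T w h₁ Y) (e i))‖ - 4 / 3 * (κ * ‖co T Y‖))]
  rw [h1]
  refine h3.trans ?_
  rw [h4]
  have h6 : ∑ i, ‖co S (PS T w Y (e i))‖ ^ 2 ≤
      2 * ∑ i, ‖adj (Jm T w h₁ Y) (e i) - S.starProjection (adj (Jm T w h₁ Y) (e i))‖ ^ 2 +
        32 / 9 * (Fintype.card ι) * (κ * ‖co T Y‖) ^ 2 := by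
    refine (Finset.sum_le_sum fun i _ => h5 i).trans (le_of_eq ?_)
    rw [Finset.sum_add_distrib, ← Finset.mul_sum, Finset.sum_const, Finset.card_univ, nsmul_eq_mul]
    ring
  have h7 : 0 ≤ ∑ i, ‖adj (Jm T w h₁ Y) (e i) -
      S.starProjection (adj (Jm T w h₁ Y) (e i))‖ ^ 2 :=
    Finset.sum_nonneg fun _ _ => sq_nonneg _
  have h8 : 0 ≤ (Fintype.card ι : ℝ) * (κ * ‖co T Y‖) ^ 2 := by positivity
  nlinarith

end Vale.Agent.P214.BCS
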