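import Vale.Agent.P214.FM.Real

/-!
# P214, Target B, block B3: pinching identity

`ff N Y = vp^{-1/2} (rh - P rh) + N vp^{1/2} om`; `pinF N = t^{-m} ∫ k |ff N|²`.
* `CylF.pin_eq` : `pinF N = bF - 2 N jF + N² HF`, exact;
* `CylF.sub_le` : for two centres `z, z'` with small pinching for `N, N'`, the field
  `(1 - P) Jm^* (p z' - p z)` is small in `L²` (exact cone splitting).
-/

open Set Filter Topology MeasureTheory Metric
open scoped RealInnerProductSpace ContDiff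

set_option linter.all false

namespace Vale.Agent.P214.BCS

open FV ODE FM

variable {E : Type*} [NormedAddCommGroup E] [InnerProductSpace ℝ E] [FiniteDimensional ℝ E]
  [MeasurableSpace E] [BorelSpace E]

/-- the pinching field -/
noncomputable def ff (T : Submodule ℝ E) (w : E → E) (h₁ : ℝ) (z : E) (P : E → E →L[ℝ] E) (N : ℝ)
    (Y : E) : E :=
  (√(vp T w z Y))⁻¹ • (rh T w h₁ z Y - P Y (rh T w h₁ z Y)) + (N * √(vp T w z Y)) • om T w Y

/-- the pinching -/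
noncomputable def pinF (m : ℕ) (T : Submodule ℝ E) (w : E → E) (h₁ : ℝ) (z : E) (k K : ℝ → ℝ)
    (P : E → E →L[ℝ] E) (ν : Measure E) (N t : ℝ) : ℝ :=
  bF m T w h₁ z k P ν t - 2 * N * jF m T w h₁ z K P ν t + N ^ 2 * HF m T w z k ν t

/-- the directional energy -/
noncomputable def BB (T : Submodule ℝ E) (w : E → E) (h₁ : ℝ) (P : E → E →L[ℝ] E) (ν : Measure E)
    (C : Set E) (a : E) : ℝ :=
  ∫ Y in C, ‖adj (Jm T w h₁ Y) a - P Y (adj (Jm T w h₁ Y) a)‖ ^ 2 ∂ν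

variable {m : ℕ} {T : Submodule ℝ E} {w : E → E} {ε κ h₁ : ℝ} {G : Set E} {h : ℝ}
  {ν : Measure E} {P : E → E →L[ℝ] E} {z z' : E} {k k' K : ℝ → ℝ} {t R : ℝ}

/-- `1 - vp` is at most the squared slope -/
lemma one_sub_vp_le (hw : Ref T w ε κ) (z Y : E) : 1 - vp T w z Y ≤ ‖fderiv ℝ w Y‖ ^ 2 := by
  unfold vp
  rw [sub_sub_cancel]
  rcases eq_or_ne (‖XX T w z Y‖ ^ 2) 0 with h | h
  · rw [h, div_zero]; positivity
  · have h4 : 0 < ‖XX T w z Y‖ ^ 2 := lt_of_le_of_ne (sq_nonneg _) h.symm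
    rw [div_le_iff₀ h4]
    have h1 := hw.norm_sub_PS_le (Y := Y) (bx T z Y)
    rw [starProjection_bx] at h1
    have h2 : ‖nX T w z Y‖ ≤ ‖fderiv ℝ w Y‖ * ‖XX T w z Y‖ := by
      refine h1.trans ?_
      exact (fderiv ℝ w Y).le_opNorm _
    calc ‖nX T w z Y‖ ^ 2 ≤ (‖fderiv ℝ w Y‖ * ‖XX T w z Y‖) ^ 2 := by gcongr
      _ = _ := by ring

lemma norm_ff_sq (hw : Ref T w ε κ) (hε : ε ≤ 1 / 16) (N : ℝ) (Y : E) :
    ‖ff T w h₁ z P N Y‖ ^ 2 =
      (vp T w z Y)⁻¹ * ‖rh T w h₁ z Y - P Y (rh T w h₁ z Y)‖ ^ 2 +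
      (2 * N) * ⟪rh T w h₁ z Y - P Y (rh T w h₁ z Y), om T w Y⟫ +
      N ^ 2 * (vp T w z Y * ‖om T w Y‖ ^ 2) := by
  have hv : 0 < vp T w z Y := by
    have := hw.half_le_vp hε z Y; linarith
  have hs : 0 < √(vp T w z Y) := Real.sqrt_pos.2 hv
  unfold ff
  rw [norm_add_sq_real, norm_smul, norm_smul, inner_smul_left, inner_smul_right, mul_pow, mul_pow,
    Real.norm_eq_abs, Real.norm_eq_abs, sq_abs, sq_abs, inv_pow, Real.sq_sqrt hv.le, mul_pow,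
    Real.sq_sqrt hv.le]
  simp only [conj_trivial]
  field_simp

section cyl

variable (H : Adm T w ε κ h₁) (hC : CylF m T w h₁ G h ν P)

include H hC

lemma gd_ff (hR : 0 ≤ R) (hG : BallIn T G z R) (N : ℝ) :
    Gd (aX T w z) ν R (fun Y => ‖ff T w h₁ z P N Y‖ ^ 2) := by
  have hcr := (H.contDiff_rh z).continuous
  have hco := H.ref.contDiff_om.continuous
  have g0 := hC.gd_vp H (a := aX T w z) (R := R) (z := z)
  have g0' := hC.gd_vp_inv H (a := aX T w z) (R := R) (z := z)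
  have g1 := hC.gd_perp H hR hG hcr
  have g2 := hC.gd H.ref hR hG hco
  have g3 : Gd (aX T w z) ν R (fun _ => (2 * N)) := Gd.const _
  have g4 : Gd (aX T w z) ν R (fun _ => (N ^ 2)) := Gd.const _
  have h1 := ((g0'.mul (g1.norm.pow 2)).add (g3.mul (g1.inner g2))).add
    (g4.mul (g0.mul (g2.norm.pow 2)))
  have h2 : (fun Y => ‖ff T w h₁ z P N Y‖ ^ 2) = fun Y =>
      (vp T w z Y)⁻¹ * ‖rh T w h₁ z Y - P Y (rh T w h₁ z Y)‖ ^ 2 +
      (2 * N) * ⟪rh T w h₁ z Y - P Y (rh T w h₁ z Y), om T w Y⟫ +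
      N ^ 2 * (vp T w z Y * ‖om T w Y‖ ^ 2) := funext fun Y => norm_ff_sq H.ref H.eps_le N Y
  rw [h2]
  exact h1

/-- **the pinching identity** -/
theorem pin_eq (hk : Kern k k' K) (ht : 0 < t) (hG : BallIn T G z t) (N : ℝ) :
    t ^ (-(m : ℤ)) * kI T w z ν k (fun Y => ‖ff T w h₁ z P N Y‖ ^ 2) t =
      pinF m T w h₁ z k K P ν N t := by
  have hcr := (H.contDiff_rh z).continuous
  have hco := H.ref.contDiff_om.continuous
  have g0 := hC.gd_vp H (a := aX T w z) (R := t) (z := z)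
  have g0' := hC.gd_vp_inv H (a := aX T w z) (R := t) (z := z)
  have g1 := hC.gd_perp H ht.le hG hcr
  have g2 := hC.gd H.ref ht.le hG hco
  have g3 : Gd (aX T w z) ν t (fun _ => (2 * N)) := Gd.const _
  have g4 : Gd (aX T w z) ν t (fun _ => (N ^ 2)) := Gd.const _
  have e1 : kI T w z ν k (fun Y => ‖ff T w h₁ z P N Y‖ ^ 2) t =
      kI T w z ν k (fun Y => (vp T w z Y)⁻¹ * ‖rh T w h₁ z Y - P Y (rh T w h₁ z Y)‖ ^ 2) t +
      2 * N * kI T w z ν k (fun Y => ⟪rh T w h₁ z Y - P Y (rh T w h₁ z Y), om T w Y⟫) t +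
      N ^ 2 * kI T w z ν k (fun Y => vp T w z Y * ‖om T w Y‖ ^ 2) t := by
    have h2 : (fun Y => ‖ff T w h₁ z P N Y‖ ^ 2) = fun Y =>
        ((vp T w z Y)⁻¹ * ‖rh T w h₁ z Y - P Y (rh T w h₁ z Y)‖ ^ 2 +
        (2 * N) * ⟪rh T w h₁ z Y - P Y (rh T w h₁ z Y), om T w Y⟫) +
        N ^ 2 * (vp T w z Y * ‖om T w Y‖ ^ 2) := funext fun Y => norm_ff_sq H.ref H.eps_le N Y
    rw [h2, hC.kI_add H ((g0'.mul (g1.norm.pow 2)).add (g3.mul (g1.inner g2)))
      (g4.mul (g0.mul (g2.norm.pow 2))) hk.pk.continuous hk.pk.zero ht le_rfl,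
      hC.kI_add H (g0'.mul (g1.norm.pow 2)) (g3.mul (g1.inner g2)) hk.pk.continuous hk.pk.zero
        ht le_rfl, kI_const_mul, kI_const_mul]
  have e2 : kI T w z ν k (fun Y => ⟪rh T w h₁ z Y - P Y (rh T w h₁ z Y), om T w Y⟫) t =
      kI T w z ν k (fun Y => ⟪rh T w h₁ z Y - P Y (rh T w h₁ z Y), om T w Y - P Y (om T w Y)⟫)
        t := by
    refine kI_congr hk.pk.zero ht ?_
    filter_upwards [hC.proj] with Y hY _
    obtain ⟨S, -, hS⟩ := hY
    rw [hS, inner_sub_right]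
    have : ⟪rh T w h₁ z Y - S.starProjection (rh T w h₁ z Y), S.starProjection (om T w Y)⟫
        = 0 := by
      show ⟪co S (rh T w h₁ z Y), S.starProjection (om T w Y)⟫ = 0
      rw [inner_co, co_star, inner_zero_right]
    rw [this, sub_zero]
  have e3 := hC.outer' H hk ht hG
  unfold pinF
  rw [e3, e1, e2]
  unfold bF HF
  ring

/-- the pinching is nonnegative -/
lemma pinF_nonneg (hk : Kern k k' K) (ht : 0 < t) (hG : BallIn T G z t) (N : ℝ) :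
    0 ≤ pinF m T w h₁ z k K P ν N t := by
  rw [← pin_eq H hC hk ht hG]
  refine mul_nonneg (by positivity) (integral_nonneg fun Y => ?_)
  exact mul_nonneg (hk.nonneg _) (by positivity)

omit H hC in
/-- the exact difference identity -/
lemma rh_sub (Y : E) : rh T w h₁ z Y - rh T w h₁ z' Y =
    adj (Jm T w h₁ Y) (T.starProjection z' - T.starProjection z) := by
  unfold rh cR
  rw [← map_sub, bx_eq, bx_eq]
  congr 1
  abel

omit H hC in
lemma perp_eq (hw : Ref T w ε κ) (hε : ε ≤ 1 / 16) (N : ℝ) (Y : E) :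
    rh T w h₁ z Y - P Y (rh T w h₁ z Y) =
      √(vp T w z Y) • ff T w h₁ z P N Y - (N * vp T w z Y) • om T w Y := by
  have hv : 0 < vp T w z Y := by
    have := hw.half_le_vp hε z Y; linarith
  have hs : 0 < √(vp T w z Y) := Real.sqrt_pos.2 hv
  unfold ff
  rw [smul_add, smul_smul, smul_smul, mul_inv_cancel₀ hs.ne', one_smul]
  have : √(vp T w z Y) * (N * √(vp T w z Y)) = N * vp T w z Y := by
    calc _ = N * (√(vp T w z Y) * √(vp T w z Y)) := by ring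
      _ = _ := by rw [Real.mul_self_sqrt hv.le]
  rw [this]
  abel

omit H hC in
/-- pointwise bound -/
lemma norm_perp_le (hw : Ref T w ε κ) (hε : ε ≤ 1 / 16) (N N' v : ℝ) {Y : E}
    (hv : ‖fderiv ℝ w Y‖ ^ 2 ≤ v) :
    ‖adj (Jm T w h₁ Y) (T.starProjection z' - T.starProjection z) -
      P Y (adj (Jm T w h₁ Y) (T.starProjection z' - T.starProjection z))‖ ^ 2 ≤
      3 * ‖ff T w h₁ z P N Y‖ ^ 2 + 3 * ‖ff T w h₁ z' P N' Y‖ ^ 2 +
        3 * (|N - N'| + (|N| + |N'|) * v) ^ 2 * ‖om T w Y‖ ^ 2 := by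
  have e1 : adj (Jm T w h₁ Y) (T.starProjection z' - T.starProjection z) -
      P Y (adj (Jm T w h₁ Y) (T.starProjection z' - T.starProjection z)) =
      √(vp T w z Y) • ff T w h₁ z P N Y + -(√(vp T w z' Y) • ff T w h₁ z' P N' Y) +
        (N' * vp T w z' Y - N * vp T w z Y) • om T w Y := by
    rw [← rh_sub, map_sub]
    have h1 := perp_eq (P := P) (z := z) (h₁ := h₁) hw hε N Y
    have h2 := perp_eq (P := P) (z := z') (h₁ := h₁) hw hε N' Y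
    calc rh T w h₁ z Y - rh T w h₁ z' Y - (P Y (rh T w h₁ z Y) - P Y (rh T w h₁ z' Y))
        = (rh T w h₁ z Y - P Y (rh T w h₁ z Y)) - (rh T w h₁ z' Y - P Y (rh T w h₁ z' Y)) := by
          abel
      _ = _ := by rw [h1, h2, sub_smul]; abel
  have hv1 := hw.half_le_vp hε z Y
  have hv2 := hw.half_le_vp hε z' Y
  have hv3 : vp T w z Y ≤ 1 := Ref.vp_le_one z Y
  have hv4 : vp T w z' Y ≤ 1 := Ref.vp_le_one z' Y
  have hv5 := (one_sub_vp_le hw z Y).trans hv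
  have hv6 := (one_sub_vp_le hw z' Y).trans hv
  have n1 : ‖√(vp T w z Y) • ff T w h₁ z P N Y‖ ≤ ‖ff T w h₁ z P N Y‖ := by
    rw [norm_smul, Real.norm_eq_abs, abs_of_nonneg (Real.sqrt_nonneg _)]
    have : √(vp T w z Y) ≤ 1 := Real.sqrt_le_one.2 hv3
    nlinarith [norm_nonneg (ff T w h₁ z P N Y)]
  have n2 : ‖-(√(vp T w z' Y) • ff T w h₁ z' P N' Y)‖ ≤ ‖ff T w h₁ z' P N' Y‖ := by
    rw [norm_neg, norm_smul, Real.norm_eq_abs, abs_of_nonneg (Real.sqrt_nonneg _)]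
    have : √(vp T w z' Y) ≤ 1 := Real.sqrt_le_one.2 hv4
    nlinarith [norm_nonneg (ff T w h₁ z' P N' Y)]
  have n3 : |N' * vp T w z' Y - N * vp T w z Y| ≤ |N - N'| + (|N| + |N'|) * v := by
    have e2 : N' * vp T w z' Y - N * vp T w z Y =
        (N' - N) + (N * (1 - vp T w z Y) - N' * (1 - vp T w z' Y)) := by ring
    rw [e2]
    have a1 : |N * (1 - vp T w z Y)| ≤ |N| * v := by
      rw [abs_mul, abs_of_nonneg (by linarith : 0 ≤ 1 - vp T w z Y)]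
      exact mul_le_mul_of_nonneg_left hv5 (abs_nonneg _)
    have a2 : |N' * (1 - vp T w z' Y)| ≤ |N'| * v := by
      rw [abs_mul, abs_of_nonneg (by linarith : 0 ≤ 1 - vp T w z' Y)]
      exact mul_le_mul_of_nonneg_left hv6 (abs_nonneg _)
    calc _ ≤ |N' - N| + |N * (1 - vp T w z Y) - N' * (1 - vp T w z' Y)| := abs_add_le _ _
      _ ≤ |N - N'| + (|N * (1 - vp T w z Y)| + |N' * (1 - vp T w z' Y)|) := by
          rw [abs_sub_comm N' N]
          gcongr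
          exact abs_sub _ _
      _ ≤ _ := by linarith
  have n4 : ‖(N' * vp T w z' Y - N * vp T w z Y) • om T w Y‖ ≤
      (|N - N'| + (|N| + |N'|) * v) * ‖om T w Y‖ := by
    rw [norm_smul, Real.norm_eq_abs]
    gcongr
  have hsum : ∀ a b c : E, ‖a + b + c‖ ^ 2 ≤ 3 * ‖a‖ ^ 2 + 3 * ‖b‖ ^ 2 + 3 * ‖c‖ ^ 2 := by
    intro a b c
    have h1 : ‖a + b + c‖ ≤ ‖a‖ + ‖b‖ + ‖c‖ := (norm_add_le _ _).trans (by
      gcongr; exact norm_add_le _ _)
    have h2 : ‖a + b + c‖ ^ 2 ≤ (‖a‖ + ‖b‖ + ‖c‖) ^ 2 := by gcongr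
    nlinarith [sq_nonneg (‖a‖ - ‖b‖), sq_nonneg (‖b‖ - ‖c‖), sq_nonneg (‖a‖ - ‖c‖)]
  rw [e1]
  refine (hsum _ _ _).trans ?_
  have q1 : ‖√(vp T w z Y) • ff T w h₁ z P N Y‖ ^ 2 ≤ ‖ff T w h₁ z P N Y‖ ^ 2 := by gcongr
  have q2 : ‖-(√(vp T w z' Y) • ff T w h₁ z' P N' Y)‖ ^ 2 ≤ ‖ff T w h₁ z' P N' Y‖ ^ 2 := by
    gcongr
  have q3 : ‖(N' * vp T w z' Y - N * vp T w z Y) • om T w Y‖ ^ 2 ≤
      (|N - N'| + (|N| + |N'|) * v) ^ 2 * ‖om T w Y‖ ^ 2 := by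
    rw [← mul_pow]
    gcongr
  linarith

end cyl

end Vale.Agent.P214.BCS
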