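import Vale.Agent.P214.BCS.LowInt
import Vale.Agent.P214.BCS.Pin
import Vale.Agent.P214.ODEW.Final

/-!
# P214, block B3-LOW: the directional energies see the height

`low_BB`: if `c₀ HF ≤ jF` at the scale `t/8` and the height does not drop too much between `t`,
`t/4` and `t/8`, then `c₁ (t^m/t²) HF t ≤ ∑ᵢ BB {aX < (t/8)²} (e i)`.
-/

open Set Filter Topology MeasureTheory Metric
open scoped RealInnerProductSpace ContDiff

set_option linter.all false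

namespace Vale.Agent.P214.BCS

open FV FM ODE ODEW

variable {E : Type*} [NormedAddCommGroup E] [InnerProductSpace ℝ E] [FiniteDimensional ℝ E]
  [MeasurableSpace E] [BorelSpace E]
variable {m : ℕ} {T : Submodule ℝ E} {w : E → E} {ε κ h₁ : ℝ} {G : Set E} {h : ℝ}
  {ν : Measure E} {P : E → E →L[ℝ] E} {z : E} {k k' K : ℝ → ℝ} {t B σ : ℝ}

variable (H : Adm T w ε κ h₁) (hC : CylF m T w h₁ G h ν P)

include H hC

/-- the height of the ball of radius `t` is at most the kernel height at `2t` -/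
lemma XuF_le_HF (hk : KB k k' K B) (ht : 0 < t) (hG : BallIn T G z (2 * t)) :
    XuF m T w z ν t ≤ 2 ^ (m + 1) * B ^ 2 * HF m T w z k ν (2 * t) := by
  have h2t : 0 < 2 * t := by positivity
  have hB0 : 0 ≤ B := zero_le_one.trans hk.one
  have i1 := hC.intg H (hC.gd_HF H h2t.le hG) hk.kern.pk.continuous hk.kern.pk.zero h2t le_rfl
  have hnn : ∀ Y, 0 ≤ k (aX T w z Y / (2 * t) ^ 2) * (vp T w z Y * ‖om T w Y‖ ^ 2) := fun Y => by
    have := H.ref.half_le_vp H.eps_le z Y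
    exact mul_nonneg (hk.kern.nonneg _) (by positivity)
  have key : ∫ Y in {Y | aX T w z Y < t ^ 2}, ‖co T Y‖ ^ 2 ∂ν ≤
      2 * B ^ 2 * kI T w z ν k (fun Y => vp T w z Y * ‖om T w Y‖ ^ 2) (2 * t) := by
    unfold kI
    rw [← integral_const_mul]
    refine le_trans ?_ (setIntegral_le_integral (s := {Y | aX T w z Y < t ^ 2}) (i1.const_mul _)
      (Eventually.of_forall fun Y => mul_nonneg (by positivity) (hnn Y)))
    refine integral_mono_of_nonneg (Eventually.of_forall fun Y => by positivity)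
      (i1.const_mul _).integrableOn ?_
    filter_upwards [ae_restrict_mem (measurableSet_aX H t)] with Y hY
    have hY' : aX T w z Y < t ^ 2 := hY
    have hs0 : 0 ≤ aX T w z Y / (2 * t) ^ 2 := div_nonneg (aX_nonneg _) (by positivity)
    have hs1 : aX T w z Y / (2 * t) ^ 2 < 1 / 4 := by
      rw [div_lt_iff₀ (by positivity)]; nlinarith
    have h1 := hk.Klow _ hs0 hs1
    have h2 := hk.Kk _ hs0
    have h3 : 1 ≤ B ^ 2 * k (aX T w z Y / (2 * t) ^ 2) := by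
      calc (1 : ℝ) ≤ B * K (aX T w z Y / (2 * t) ^ 2) := h1
        _ ≤ B * (B * k (aX T w z Y / (2 * t) ^ 2)) := by gcongr
        _ = _ := by ring
    have h4 := H.ref.half_le_vp H.eps_le z Y
    have h5 := (norm_sq_om H Y).1
    have h6 : ‖co T Y‖ ^ 2 ≤ 2 * (vp T w z Y * ‖om T w Y‖ ^ 2) := by
      have : 1 / 2 * ‖om T w Y‖ ^ 2 ≤ vp T w z Y * ‖om T w Y‖ ^ 2 := by gcongr
      linarith
    have h7 : 0 ≤ vp T w z Y * ‖om T w Y‖ ^ 2 := by positivity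
    calc ‖co T Y‖ ^ 2 ≤ 1 * (2 * (vp T w z Y * ‖om T w Y‖ ^ 2)) := by linarith
      _ ≤ (B ^ 2 * k (aX T w z Y / (2 * t) ^ 2)) * (2 * (vp T w z Y * ‖om T w Y‖ ^ 2)) := by
          gcongr
      _ = _ := by ring
  unfold XuF HF
  have e1 : (2 * t) ^ (-(m : ℤ)) = (2 ^ m)⁻¹ * t ^ (-(m : ℤ)) := by
    rw [mul_zpow]; simp [zpow_neg]
  rw [e1]
  have h0 : 0 ≤ t ^ (-(m : ℤ)) := by positivity
  calc t ^ (-(m : ℤ)) * ∫ Y in {Y | aX T w z Y < t ^ 2}, ‖co T Y‖ ^ 2 ∂ν ≤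
      t ^ (-(m : ℤ)) * (2 * B ^ 2 * kI T w z ν k (fun Y => vp T w z Y * ‖om T w Y‖ ^ 2) (2 * t)) := by
        gcongr
    _ = _ := by
        have h2 : (2 : ℝ) ^ m ≠ 0 := by positivity
        field_simp
        ring

/-- **[B3-LOW]** -/
theorem low_BB (hmin : MinimalOver T w G) (hh : h ≤ 1) (hκt : κ * (t / 8) ≤ eps0)
    (hs : Slp T w z κ (t / 8)) (hG : BallIn T G z t) (hk : KB k k' K B) (ht : 0 < t) (hσ : 0 ≤ σ)
    (hu : ∀ᵐ Y ∂ν, aX T w z Y < (t / 8) ^ 2 → ‖co T Y‖ ≤ σ * (t / 8)) {c₀ d D : ℝ}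
    (hc₀ : 0 ≤ c₀)
    (h0 : c₀ * HF m T w z k ν (t / 8) ≤ jF m T w h₁ z K P ν (t / 8))
    (hd : d * HF m T w z k ν t ≤ HF m T w z k ν (t / 8))
    (hD : HF m T w z k ν (t / 4) ≤ D * HF m T w z k ν (t / 8))
    (hs1 : 2 * B * cB m (Module.finrank ℝ E) * (κ * (t / 8)) ^ 2 ≤ c₀ / 2)
    (hs2 : cB m (Module.finrank ℝ E) * σ * (κ * (t / 8)) ≤ 1)
    (hs3 : 20 * m * B * (κ * (t / 8)) ^ 2 * (2 ^ (m + 1) * B ^ 2 * D) ≤ c₀ / 4)
    {ι : Type*} [Fintype ι] (e : OrthonormalBasis ι ℝ T) :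
    c₀ * d * 64 / (24 * B * 8 ^ m) * (t ^ m / t ^ 2) * HF m T w z k ν t ≤
      ∑ i, BB T w h₁ P ν {Y | aX T w z Y < (t / 8) ^ 2} (e i) := by
  have hr : 0 < t / 8 := by positivity
  have hB0 : 0 < B := lt_of_lt_of_le one_pos hk.one
  have hG4 : BallIn T G z (2 * (t / 8)) := fun x hx hx2 => hG x hx (by linarith)
  have hG8 : BallIn T G z (t / 8) := fun x hx hx2 => hG x hx (by linarith)
  have hGt : BallIn T G z t := hG
  have hH0 := hC.HF_nonneg (z := z) H hk.kern hr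
  have hg0 := hC.gF_nonneg (z := z) H hk.kern hr
  have hjg := CylF.abs_jF_sub_gF_le H hC hmin hh hκt hs hG hk hr (by linarith) hσ hu
  have hg := CylF.gF_le H hC hmin hh hκt hs hG hk hr (by linarith)
  have hXu : XuF m T w z ν (t / 8) ≤ 2 ^ (m + 1) * B ^ 2 * D * HF m T w z k ν (t / 8) := by
    have h1 := XuF_le_HF H hC hk hr hG4
    have h2 : 2 * (t / 8) = t / 4 := by ring
    rw [h2] at h1
    calc _ ≤ _ := h1
      _ ≤ 2 ^ (m + 1) * B ^ 2 * (D * HF m T w z k ν (t / 8)) := by gcongr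
      _ = _ := by ring
  have hXe := low_int (z := z) H hC hr hG8 e
  have hjg' : |jF m T w h₁ z K P ν (t / 8) - gF m T w z K P ν (t / 8)| ≤
      2 * B * cB m (Module.finrank ℝ E) * (κ * (t / 8)) ^ 2 * HF m T w z k ν (t / 8) +
        1 * gF m T w z K P ν (t / 8) :=
    hjg.trans (by gcongr)
  have key := low_real (m := m) (s := κ * (t / 8)) hH0 hg0 hB0 h0 hjg' hs1 hg
    (S := ∑ i, DirE m T w h₁ z P ν (t / 8) (e i)) (Xu := XuF m T w z ν (t / 8)) hXe hXu hs3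
  have e1 : ∑ i, DirE m T w h₁ z P ν (t / 8) (e i) = (t / 8) ^ (2 - (m : ℤ)) *
      ∑ i, BB T w h₁ P ν {Y | aX T w z Y < (t / 8) ^ 2} (e i) := by
    rw [Finset.mul_sum]; rfl
  rw [e1] at key
  set S : ℝ := ∑ i, BB T w h₁ P ν {Y | aX T w z Y < (t / 8) ^ 2} (e i) with hS
  have e2 : (t / 8) ^ (2 - (m : ℤ)) = (t / 8) ^ 2 / (t / 8) ^ m := by
    rw [zpow_sub₀ hr.ne']; norm_cast
  rw [e2] at key
  have h5 : c₀ / 4 * (d * HF m T w z k ν t) ≤ 6 * B * ((t / 8) ^ 2 / (t / 8) ^ m * S) :=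
    le_trans (by gcongr) key
  have h6 : 0 < t ^ m / t ^ 2 := by positivity
  calc c₀ * d * 64 / (24 * B * 8 ^ m) * (t ^ m / t ^ 2) * HF m T w z k ν t =
      (64 / (6 * B * 8 ^ m) * (t ^ m / t ^ 2)) * (c₀ / 4 * (d * HF m T w z k ν t)) := by
        field_simp; ring
    _ ≤ (64 / (6 * B * 8 ^ m) * (t ^ m / t ^ 2)) * (6 * B * ((t / 8) ^ 2 / (t / 8) ^ m * S)) := by
        gcongr
    _ = S := by
        rw [div_pow, div_pow]
        field_simp
        norm_num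

end Vale.Agent.P214.BCS
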