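import Vale.Agent.P214.BCS.Low
import Vale.Agent.P214.FM.Real

/-!
# P214, block B3-LOW: integrated lower bound of the directional energies

`low_int`: `t^{2-m} ∫_{aX<t²} eS ≤ 3 ∑ᵢ t^{2-m} ∫_{aX<t²} ‖(1-P) Jm^* eᵢ‖² + 5 m (κt)² t^{-m} ∫_{aX<t²} ‖co‖²`.
`low_H`: if `c₀ HF ≤ jF` and the errors are small, then `c₀ HF ≤ C ∑ᵢ t^{2-m} ∫_{aX<t²} ‖(1-P) Jm^* eᵢ‖²`.
-/

open Set Filter Topology MeasureTheory Metric
open scoped RealInnerProductSpace ContDiff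

set_option linter.all false

namespace Vale.Agent.P214.BCS

open FV FM ODE

variable {E : Type*} [NormedAddCommGroup E] [InnerProductSpace ℝ E] [FiniteDimensional ℝ E]
  [MeasurableSpace E] [BorelSpace E]
variable {m : ℕ} {T : Submodule ℝ E} {w : E → E} {ε κ h₁ : ℝ} {G : Set E} {h : ℝ}
  {ν : Measure E} {P : E → E →L[ℝ] E} {z : E} {t : ℝ}

/-- the normal part of `Jm^* a` -/
noncomputable def dirF (T : Submodule ℝ E) (w : E → E) (h₁ : ℝ) (P : E → E →L[ℝ] E) (a Y : E) : ℝ :=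
  ‖adj (Jm T w h₁ Y) a - P Y (adj (Jm T w h₁ Y) a)‖ ^ 2

/-- the directional energy, scaled -/
noncomputable def DirE (m : ℕ) (T : Submodule ℝ E) (w : E → E) (h₁ : ℝ) (z : E)
    (P : E → E →L[ℝ] E) (ν : Measure E) (t : ℝ) (a : E) : ℝ :=
  t ^ (2 - (m : ℤ)) * ∫ Y in {Y | aX T w z Y < t ^ 2}, dirF T w h₁ P a Y ∂ν

variable (H : Adm T w ε κ h₁) (hC : CylF m T w h₁ G h ν P)

include H hC

lemma gd_dirF (ht : 0 ≤ t) (hG : BallIn T G z t) (a : E) : Gd (aX T w z) ν t (dirF T w h₁ P a) := by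
  have hc : Continuous fun Y => adj (Jm T w h₁ Y) a :=
    ((adj (E := E)).continuous.comp H.contDiff_Jm.continuous).clm_apply continuous_const
  have g1 : Gd (aX T w z) ν t (fun Y => adj (Jm T w h₁ Y) a) := hC.gd H.ref ht hG hc
  exact ((g1.sub (hC.gdP.clm_apply g1)).norm).pow 2

omit hC in
lemma measurableSet_aX (t : ℝ) : MeasurableSet {Y | aX T w z Y < t ^ 2} :=
  measurableSet_lt (H.ref.continuous_aX z).measurable measurable_const

lemma integrableOn_gd {f : E → ℝ} (hf : Gd (aX T w z) ν t f) :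
    IntegrableOn f {Y | aX T w z Y < t ^ 2} ν := by
  haveI := hC.fin
  obtain ⟨C, hC', h1⟩ := hf.bd
  refine Integrable.of_bound (hf.meas.restrict) C ?_
  rw [ae_restrict_iff' (measurableSet_aX H t)]
  filter_upwards [h1] with Y h2 h3
  exact h2 h3

/-- **[B3-LOW], integrated** -/
theorem low_int (ht : 0 < t) (hG : BallIn T G z t) {ι : Type*} [Fintype ι]
    (e : OrthonormalBasis ι ℝ T) :
    t ^ (2 - (m : ℤ)) * ∫ Y in {Y | aX T w z Y < t ^ 2}, eS T w Y (P Y) ∂ν ≤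
      3 * ∑ i, DirE m T w h₁ z P ν t (e i) +
        5 * m * (κ * t) ^ 2 * (t ^ (-(m : ℤ)) *
          ∫ Y in {Y | aX T w z Y < t ^ 2}, ‖co T Y‖ ^ 2 ∂ν) := by
  have hcard : Fintype.card ι = m := by
    rw [← hC.dimT, Module.finrank_eq_card_basis e.toBasis]
  have gco : Gd (aX T w z) ν t (fun Y => ‖co T Y‖ ^ 2) :=
    (hC.gd H.ref ht.le hG (co T).continuous).norm.pow 2
  have i1 : ∀ i, IntegrableOn (dirF T w h₁ P (e i)) {Y | aX T w z Y < t ^ 2} ν := fun i =>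
    integrableOn_gd H hC (gd_dirF H hC ht.le hG _)
  have i2 : IntegrableOn (fun Y => ‖co T Y‖ ^ 2) {Y | aX T w z Y < t ^ 2} ν :=
    integrableOn_gd H hC gco
  have i3 : Integrable (fun Y => ∑ i, dirF T w h₁ P (e i) Y)
      (ν.restrict {Y | aX T w z Y < t ^ 2}) := integrable_finset_sum _ fun i _ => i1 i
  have key : ∫ Y in {Y | aX T w z Y < t ^ 2}, eS T w Y (P Y) ∂ν ≤
      ∫ Y in {Y | aX T w z Y < t ^ 2}, (3 * ∑ i, dirF T w h₁ P (e i) Y +
        5 * m * κ ^ 2 * ‖co T Y‖ ^ 2) ∂ν := by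
    refine integral_mono_of_nonneg ?_ ((i3.const_mul 3).add (Integrable.const_mul i2 _)) ?_
    · have h1 := ae_restrict_of_ae (s := {Y | aX T w z Y < t ^ 2}) hC.proj
      filter_upwards [h1] with Y hY
      obtain ⟨S, hS, hP⟩ := hY
      rw [hP]
      show 0 ≤ tilt (planeOf T w Y) S.starProjection
      rw [← hs_co_comp]
      exact hs_nonneg _
    · have h1 := ae_restrict_of_ae (s := {Y | aX T w z Y < t ^ 2}) hC.proj
      have h2 := (ae_restrict_iff' (measurableSet_aX H t)).2 (hC.slab_lt H.ref ht.le hG)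
      filter_upwards [h1, h2] with Y hY hY2
      obtain ⟨S, hS, hP⟩ := hY
      have h3 := low_pt H hY2.2 (S := S) (by rw [hS, hC.dimT]) e
      rw [hcard, ← hP] at h3
      refine h3.trans (le_of_eq ?_)
      unfold dirF
      ring
  have e1 : ∫ Y in {Y | aX T w z Y < t ^ 2}, (3 * ∑ i, dirF T w h₁ P (e i) Y +
        5 * m * κ ^ 2 * ‖co T Y‖ ^ 2) ∂ν =
      3 * ∑ i, ∫ Y in {Y | aX T w z Y < t ^ 2}, dirF T w h₁ P (e i) Y ∂ν +
        5 * m * κ ^ 2 * ∫ Y in {Y | aX T w z Y < t ^ 2}, ‖co T Y‖ ^ 2 ∂ν := by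
    rw [integral_add (i3.const_mul 3) (Integrable.const_mul i2 _), integral_const_mul,
      integral_const_mul, integral_finset_sum _ fun i _ => i1 i]
  rw [e1] at key
  have ht0 : 0 < t ^ (2 - (m : ℤ)) := zpow_pos ht _
  calc _ ≤ t ^ (2 - (m : ℤ)) * (3 * ∑ i, ∫ Y in {Y | aX T w z Y < t ^ 2}, dirF T w h₁ P (e i) Y ∂ν +
        5 * m * κ ^ 2 * ∫ Y in {Y | aX T w z Y < t ^ 2}, ‖co T Y‖ ^ 2 ∂ν) := by gcongr
    _ = _ := by
        have e2 : t ^ (2 - (m : ℤ)) = t ^ 2 * t ^ (-(m : ℤ)) := by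
          rw [sub_eq_add_neg, zpow_add₀ ht.ne']; norm_cast
        unfold DirE
        rw [← Finset.mul_sum, e2]
        ring

omit H hC in
/-- **[B3-LOW]**: the directional energies see the height.  `Xe`, `Xu` are the scaled tilt energy and
height of `{aX < t²}`; `hjg`, `hg` are the bounds of ODEW. -/
lemma low_real {c₀ HH j g Xe Xu A B D s S : ℝ} {m : ℕ} (hH : 0 ≤ HH) (hg0 : 0 ≤ g) (hB : 0 < B)
    (h0 : c₀ * HH ≤ j) (hjg : |j - g| ≤ A * HH + 1 * g) (hA : A ≤ c₀ / 2)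
    (hg : g ≤ B * Xe) (hXe : Xe ≤ 3 * S + 5 * m * s ^ 2 * Xu) (hXu : Xu ≤ D * HH)
    (hs : 20 * m * B * s ^ 2 * D ≤ c₀ / 4) : c₀ / 4 * HH ≤ 6 * B * S := by
  have h1 := (abs_le.1 hjg).2
  have h2 : c₀ / 2 * HH ≤ 2 * g := by nlinarith
  have h3 : 5 * m * s ^ 2 * Xu ≤ 5 * m * s ^ 2 * (D * HH) := by gcongr
  have h4 : c₀ / 2 * HH ≤ 2 * B * (3 * S + 5 * m * s ^ 2 * (D * HH)) := by
    calc c₀ / 2 * HH ≤ 2 * (B * Xe) := by linarith
      _ ≤ 2 * (B * (3 * S + 5 * m * s ^ 2 * (D * HH))) := by gcongr; linarith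
      _ = _ := by ring
  have h5 : 20 * m * B * s ^ 2 * D * HH ≤ c₀ / 4 * HH := mul_le_mul_of_nonneg_right hs hH
  nlinarith

end Vale.Agent.P214.BCS
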