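import Vale.Agent.P214.BCS.Sub
import Vale.Agent.P214.BSPL.Abs

/-!
# P214, Target B, block B3: one-scale frequency cone splitting (one reference)

If the directional energies have trace at least `c₁ t^(m-2) HF`, then there is a subspace `L ≤ T` of
dimension at most `m - 1` such that all centres `z'` at which the frequency is pinched lie, after
projection to `T`, within `C √δ t` of `p z + L`.
-/

open Set Filter Topology MeasureTheory Metric
open scoped RealInnerProductSpace ContDiff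

set_option linter.all false

namespace Vale.Agent.P214.BCS

open FV ODE FM

variable {E : Type*} [NormedAddCommGroup E] [InnerProductSpace ℝ E] [FiniteDimensional ℝ E]
  [MeasurableSpace E] [BorelSpace E]

variable {m : ℕ} {T : Submodule ℝ E} {w : E → E} {ε κ h₁ : ℝ} {G : Set E} {h : ℝ}
  {ν : Measure E} {P : E → E →L[ℝ] E} {z z' : E} {k k' K : ℝ → ℝ} {t R : ℝ}

/-- the field of the directional energy -/
noncomputable def GG (T : Submodule ℝ E) (w : E → E) (h₁ : ℝ) (P : E → E →L[ℝ] E) (Y : E) :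
    E →L[ℝ] E := (ContinuousLinearMap.id ℝ E - P Y).comp (adj (Jm T w h₁ Y))

lemma BB_eq (C : Set E) (a : E) : BB T w h₁ P ν C a = ∫ Y in C, ‖GG T w h₁ P Y a‖ ^ 2 ∂ν := rfl

lemma aesm_GG (H : Adm T w ε κ h₁) (hP : AEStronglyMeasurable P ν) (a : E) :
    AEStronglyMeasurable (fun Y => GG T w h₁ P Y a) ν := by
  have hJ : Continuous fun Y => adj (Jm T w h₁ Y) a :=
    (((adj (E := E)).continuous.comp H.contDiff_Jm.continuous).clm_apply continuous_const)
  exact hJ.aestronglyMeasurable.sub (aesm_clm_apply hP hJ.aestronglyMeasurable)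

lemma norm_GG_le (H : Adm T w ε κ h₁) {S : Submodule ℝ E} {Y : E} (hS : P Y = S.starProjection) :
    ‖GG T w h₁ P Y‖ ≤ 4 / 3 := by
  refine ContinuousLinearMap.opNorm_le_bound _ (by norm_num) fun v => ?_
  have h1 : ‖adj (Jm T w h₁ Y) v‖ ≤ 4 / 3 * ‖v‖ :=
    (norm_adj_apply_le _ _).trans (by gcongr; exact H.norm_Jm_le Y)
  refine le_trans ?_ h1
  have h2 : GG T w h₁ P Y v = adj (Jm T w h₁ Y) v - S.starProjection (adj (Jm T w h₁ Y) v) := by
    show adj (Jm T w h₁ Y) v - P Y (adj (Jm T w h₁ Y) v) = _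
    rw [hS]
  rw [h2]
  exact norm_sub_star_le S _

/-- the subspace -/
theorem exists_split (H : Adm T w ε κ h₁) (hC : CylF m T w h₁ G h ν P) (hm : 1 ≤ m) (C : Set E)
    {ι : Type*} [Fintype ι] (e : OrthonormalBasis ι ℝ T) {E₀ : ℝ}
    (hE : E₀ ≤ ∑ i, BB T w h₁ P ν C (e i)) :
    ∃ L : Submodule ℝ E, L ≤ T ∧ Module.finrank ℝ L ≤ m - 1 ∧
      ∀ a ∈ T, E₀ * ‖a - L.starProjection a‖ ^ 2 ≤ m * BB T w h₁ P ν C a := by
  haveI := hC.fin
  have hm' : Module.finrank ℝ T = m := hC.dimT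
  have h1 := BSPL.split_integral T (μ := ν.restrict C) (GG T w h₁ P)
    (fun a => (aesm_GG H hC.meas a).restrict) (K := 4 / 3)
    (by
      refine ae_restrict_of_ae ?_
      filter_upwards [hC.proj] with Y hY
      obtain ⟨S, -, hS⟩ := hY
      exact norm_GG_le H hS) e (E₀ := E₀) hE (by omega)
  rw [hm'] at h1
  exact h1

/-- **One-scale cone splitting.** -/
theorem cone_split (H : Adm T w ε κ h₁) (hC : CylF m T w h₁ G h ν P) (hk : Kern k k' K)
    (hm : 1 ≤ m) (ht : 0 < t) (hG : BallIn T G z t) {ck : ℝ} (hck : 0 < ck)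
    (hkl : ∀ s, 0 ≤ s → s ≤ 1 / 16 → ck ≤ k s) {v : ℝ} (hv0 : 0 ≤ v)
    (hv : ∀ Y, ‖bx T z Y‖ ≤ t / 8 → ‖fderiv ℝ w Y‖ ^ 2 ≤ v)
    {ι : Type*} [Fintype ι] (e : OrthonormalBasis ι ℝ T) {c₁ : ℝ} (hc₁ : 0 < c₁)
    (hHF : 0 < HF m T w z k ν t)
    (hE : c₁ * (t ^ m / t ^ 2) * HF m T w z k ν t ≤
      ∑ i, BB T w h₁ P ν {Y | aX T w z Y < (t / 8) ^ 2} (e i)) (N : ℝ) :
    ∃ L : Submodule ℝ E, L ≤ T ∧ Module.finrank ℝ L ≤ m - 1 ∧
      ∀ (z' : E) (N' δ : ℝ), BallIn T G z' t →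
        ‖T.starProjection z' - T.starProjection z‖ ≤ t / 8 →
        pinF m T w h₁ z k K P ν N t ≤ δ * HF m T w z k ν t →
        pinF m T w h₁ z' k K P ν N' t ≤ δ * HF m T w z k ν t →
        (|N - N'| + (|N| + |N'|) * v) ^ 2 ≤ δ →
        ‖(T.starProjection z' - T.starProjection z) -
          L.starProjection (T.starProjection z' - T.starProjection z)‖ ^ 2 ≤
            12 * m / (c₁ * ck) * δ * t ^ 2 := by
  obtain ⟨L, hL, hLd, hLa⟩ := exists_split H hC hm {Y | aX T w z Y < (t / 8) ^ 2} e hE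
  refine ⟨L, hL, hLd, fun z' N' δ hG' hzz hp hp' hN => ?_⟩
  set a := T.starProjection z' - T.starProjection z with ha
  have haT : a ∈ T := T.sub_mem (T.starProjection_apply_mem z') (T.starProjection_apply_mem z)
  have h1 := hLa a haT
  have h2 := sub_le H hC hk ht hG hG' hck hkl hzz hv0 hv N N'
  rw [← ha] at h2
  set X := HF m T w z k ν t with hX
  have htm : 0 < t ^ m := by positivity
  have h3 : BB T w h₁ P ν {Y | aX T w z Y < (t / 8) ^ 2} a ≤ 12 / ck * t ^ m * δ * X := by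
    refine h2.trans ?_
    have e1 : 3 / ck * t ^ m * (pinF m T w h₁ z k K P ν N t + pinF m T w h₁ z' k K P ν N' t) ≤
        3 / ck * t ^ m * (δ * X + δ * X) := by gcongr
    have e2 : 6 / ck * t ^ m * (|N - N'| + (|N| + |N'|) * v) ^ 2 * X ≤
        6 / ck * t ^ m * δ * X := by gcongr
    calc _ ≤ 3 / ck * t ^ m * (δ * X + δ * X) + 6 / ck * t ^ m * δ * X := add_le_add e1 e2
      _ = _ := by ring
  have h4 : c₁ * (t ^ m / t ^ 2) * X * ‖a - L.starProjection a‖ ^ 2 ≤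
      m * (12 / ck * t ^ m * δ * X) := h1.trans (by gcongr)
  have h5 : c₁ * (t ^ m / t ^ 2) * X * (12 * m / (c₁ * ck) * δ * t ^ 2) =
      m * (12 / ck * t ^ m * δ * X) := by
    field_simp
  rw [← h5] at h4
  have h6 : 0 < c₁ * (t ^ m / t ^ 2) * X := by positivity
  exact le_of_mul_le_mul_left h4 h6

end Vale.Agent.P214.BCS
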