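import Vale.Agent.P214.BABS.Defs

/-!
# P214, Target B, block B5-NUM: from `BABS.Limit` to the numeric hypotheses of `BCS.cone_fin`

If `[t/A, A t]` lies in one window and `A > 16`, `A ≥ 2 b + 1`, then there are scales
`r ∈ [t/16, t/8]` and `s ∈ [t, 2 t]` of the same window with `H r / 2 ≤ j r`, pinching at `s` with
`N = M₀`, and doubling.
-/

open Set Filter Topology

namespace Vale.Agent.P214.BABS

open ABS

/-- only one window contains an interior point -/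
lemma win_unique {X : Chain} (hanti : StrictAnti X.T) {k l : ℕ} {x y s : ℝ} (hx : X.Win k x)
    (hy : X.Win k y) (hxs : x < s) (hsy : s < y) (hl : X.Win l s) : l = k := by
  rcases lt_trichotomy l k with h | h | h
  · exfalso
    have h1 : X.T k ≤ X.T (l + 1) := hanti.antitone (by omega)
    have h2 := hl.1
    have h3 := hy.2
    linarith
  · exact h
  · exfalso
    have h1 : X.T l ≤ X.T (k + 1) := hanti.antitone (by omega)
    have h2 := hl.2
    have h3 := hx.1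
    linarith

/-- The selected scales: `r` is the scale of the lower energy bound, `s` the pinched scale. -/
structure Sel (X : Chain) (M₀ D δ b t : ℝ) (k : ℕ) (r s : ℝ) : Prop where
  win : ∀ x, t / 16 ≤ x → x ≤ (2 * b + 1) * t → X.Win k x
  hr1 : t ≤ 16 * r
  hr2 : r ≤ t / 8
  hs1 : t ≤ s
  hs2 : s ≤ 2 * t
  pos : 0 < X.H k r
  low : 1 / 2 * X.H k r ≤ X.j k r
  dbl : ∀ x, r ≤ x → x ≤ (2 * b + 1) * t → X.H k x ≤ D * X.H k r
  pin : X.b k s - 2 * M₀ * X.j k s + M₀ ^ 2 * X.H k s ≤ δ * X.H k s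

/-- the doubling constant -/
noncomputable def dC (Λ b : ℝ) : ℝ := Λ * (16 * (2 * b + 1)) ^ Λ * (16 * (2 * b + 1)) ^ 2

lemma dC_pos {Λ b : ℝ} (hΛ : 0 < Λ) (hb : 0 ≤ b) : 0 < dC Λ b := by unfold dC; positivity

/-- `b H - j² ≤ η H²` and `|j/H - M₀| ≤ η` imply pinching with `N = M₀` -/
lemma pin_of {H j b M₀ η δ : ℝ} (hH : 0 < H) (h1 : |j / H - M₀| ≤ η) (h2 : b * H - j ^ 2 ≤ η * H ^ 2)
    (hη : η + η ^ 2 ≤ δ) : b - 2 * M₀ * j + M₀ ^ 2 * H ≤ δ * H := by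
  have h3 : (j / H - M₀) ^ 2 ≤ η ^ 2 := sq_le_sq' (abs_le.1 h1).1 (abs_le.1 h1).2
  have h4 : j / H * H = j := div_mul_cancel₀ _ hH.ne'
  set q := j / H with hq
  have h5 : (b - 2 * M₀ * j + M₀ ^ 2 * H) * H ≤ (η + η ^ 2) * H ^ 2 := by
    have e : (b - 2 * M₀ * j + M₀ ^ 2 * H) * H = (b * H - j ^ 2) + (q - M₀) ^ 2 * H ^ 2 := by
      rw [← h4]; ring
    rw [e]
    nlinarith [sq_nonneg H]
  have h6 : (b - 2 * M₀ * j + M₀ ^ 2 * H) * H ≤ (δ * H) * H := by
    calc _ ≤ (η + η ^ 2) * H ^ 2 := h5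
      _ ≤ δ * H ^ 2 := by gcongr
      _ = _ := by ring
  exact le_of_mul_le_mul_right h6 hH

theorem exists_sel {X : Chain} {M₀ Λ : ℝ} (hT : ∀ k, 0 < X.T k) (hanti : StrictAnti X.T)
    (hpos : ∀ k t, X.Win k t → 0 < X.H k t) (hL : Limit X M₀ Λ) {δ : ℝ} (hδ : 0 < δ) :
    ∃ t₀ > 0, ∀ (A b : ℝ), 16 < A → 1 ≤ b → 2 * b + 1 ≤ A → ∀ k t, 0 < t → A * t ≤ t₀ →
      X.Win k (t / A) → X.Win k (A * t) → ∃ r s, Sel X M₀ (dC Λ b) δ b t k r s := by
  have hM := hL.one_lt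
  have hΛ : 0 < Λ := by linarith [hL.le]
  set η := min (δ / 2) (1 / 2) with hη
  have hη0 : 0 < η := by positivity
  have hη1 : η ≤ 1 / 2 := min_le_right _ _
  have hη2 : η ≤ δ / 2 := min_le_left _ _
  obtain ⟨t₁, ht₁, hpinch⟩ := hL.pinch η hη0
  obtain ⟨t₂, ht₂, hgrow⟩ := hL.grow
  refine ⟨min t₁ t₂, lt_min ht₁ ht₂, fun A b hA hb hAb k t ht hAt hw1 hw2 => ?_⟩
  have hA0 : 0 < A := by linarith
  have hAt1 : A * t ≤ t₁ := hAt.trans (min_le_left _ _)
  have hAt2 : A * t ≤ t₂ := hAt.trans (min_le_right _ _)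
  have htA : t ≤ A * t := by nlinarith
  -- the window
  have hlow : t / A < t / 16 := by
    rw [div_lt_div_iff₀ hA0 (by norm_num)]; nlinarith
  have hwin : ∀ x, t / 16 ≤ x → x ≤ (2 * b + 1) * t → X.Win k x := fun x h1 h2 =>
    ⟨hw1.1.trans (hlow.le.trans h1), h2.trans (le_trans (by gcongr) hw2.2)⟩
  have huniq : ∀ l x, t / 16 ≤ x → x ≤ 2 * t → X.Win l x → l = k := fun l x h1 h2 hl =>
    win_unique hanti hw1 hw2 (hlow.trans_le h1) (h2.trans_lt (by nlinarith)) hl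
  -- the scale of the energy bound
  obtain ⟨l, r, hl, hr1, hr2, -, hj, -⟩ := hpinch (t / 16) (by positivity) (by linarith)
  have hr0 : 0 < r := lt_of_lt_of_le (by positivity) hr1
  obtain rfl := huniq l r hr1 (by linarith) hl
  -- the pinched scale
  obtain ⟨l', s, hl', hs1, hs2, -, hj', hb'⟩ := hpinch t ht (by linarith)
  obtain rfl := huniq l' s (by linarith) hs2 hl'
  have hHr := hpos _ _ hl
  have hHs := hpos _ _ hl'
  refine ⟨r, s, hwin, by linarith, by linarith, hs1, hs2, hHr, ?_, ?_, ?_⟩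
  · have h1 := (abs_le.1 hj).1
    have h2 : 1 / 2 ≤ X.j l' r / X.H l' r := by linarith
    rwa [le_div_iff₀ hHr] at h2
  · intro x hx1 hx2
    have hx0 : 0 < x := hr0.trans_le hx1
    have hwx : X.Win l' x := hwin x (hr1.trans hx1) hx2
    have hxt : x ≤ t₂ := hx2.trans (le_trans (by gcongr) hAt2)
    have h1 := hgrow l' x l' r hwx hxt hl hx1
    unfold Chain.h at h1
    have hq : x / r ≤ 16 * (2 * b + 1) := by
      rw [div_le_iff₀ hr0]
      calc x ≤ (2 * b + 1) * t := hx2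
        _ ≤ (2 * b + 1) * (16 * r) := by gcongr; linarith
        _ = _ := by ring
    have hq0 : 0 ≤ x / r := by positivity
    have h2 : (x / r) ^ Λ ≤ (16 * (2 * b + 1)) ^ Λ := Real.rpow_le_rpow hq0 hq hΛ.le
    rw [div_le_iff₀ (by positivity)] at h1
    have hHr0 := hHr.le
    calc X.H l' x ≤ Λ * (x / r) ^ Λ * (X.H l' r / r ^ 2) * x ^ 2 := h1
      _ = Λ * (x / r) ^ Λ * (x / r) ^ 2 * X.H l' r := by field_simp
      _ ≤ Λ * (16 * (2 * b + 1)) ^ Λ * (16 * (2 * b + 1)) ^ 2 * X.H l' r := by gcongr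
      _ = _ := by unfold dC; ring
  · refine pin_of hHs hj' hb' ?_
    nlinarith

end Vale.Agent.P214.BABS
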