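import Vale.Agent.P214.BCS.Pin

/-!
# P214, Target B, block B3: subtraction of two centres, integrated
-/

open Set Filter Topology MeasureTheory Metric
open scoped RealInnerProductSpace ContDiff

set_option linter.all false

namespace Vale.Agent.P214.BCS

open FV ODE FM

variable {E : Type*} [NormedAddCommGroup E] [InnerProductSpace ℝ E] [FiniteDimensional ℝ E]
  [MeasurableSpace E] [BorelSpace E]

variable {m : ℕ} {T : Submodule ℝ E} {w : E → E} {ε κ h₁ : ℝ} {G : Set E} {h : ℝ}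
  {ν : Measure E} {P : E → E →L[ℝ] E} {z z' : E} {k k' K : ℝ → ℝ} {t R : ℝ}

lemma zpow_mul_cancel (ht : 0 < t) (m : ℕ) (x : ℝ) : t ^ m * (t ^ (-(m : ℤ)) * x) = x := by
  rw [← mul_assoc, ← zpow_natCast, ← zpow_add₀ ht.ne']
  simp

/-- **Cone splitting, exact form**: the directional energy in the direction of the difference of
two centres is controlled by the pinching at both centres. -/
theorem sub_le (H : Adm T w ε κ h₁) (hC : CylF m T w h₁ G h ν P) (hk : Kern k k' K) (ht : 0 < t)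
    (hG : BallIn T G z t) (hG' : BallIn T G z' t) {ck : ℝ} (hck : 0 < ck)
    (hkl : ∀ s, 0 ≤ s → s ≤ 1 / 16 → ck ≤ k s)
    (hzz : ‖T.starProjection z' - T.starProjection z‖ ≤ t / 8) {v : ℝ} (hv0 : 0 ≤ v)
    (hv : ∀ Y, ‖bx T z Y‖ ≤ t / 8 → ‖fderiv ℝ w Y‖ ^ 2 ≤ v) (N N' : ℝ) :
    BB T w h₁ P ν {Y | aX T w z Y < (t / 8) ^ 2} (T.starProjection z' - T.starProjection z) ≤
      3 / ck * t ^ m * (pinF m T w h₁ z k K P ν N t + pinF m T w h₁ z' k K P ν N' t) +
        6 / ck * t ^ m * (|N - N'| + (|N| + |N'|) * v) ^ 2 * HF m T w z k ν t := by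
  haveI := hC.fin
  have hkc := hk.pk.continuous
  set A : ℝ := |N - N'| + (|N| + |N'|) * v with hA
  have hA0 : 0 ≤ A := by positivity
  set g1 : E → ℝ := fun Y => k (aX T w z Y / t ^ 2) * ‖ff T w h₁ z P N Y‖ ^ 2 with hg1
  set g2 : E → ℝ := fun Y => k (aX T w z' Y / t ^ 2) * ‖ff T w h₁ z' P N' Y‖ ^ 2 with hg2
  set g3 : E → ℝ := fun Y => k (aX T w z Y / t ^ 2) * (vp T w z Y * ‖om T w Y‖ ^ 2) with hg3
  have i1 : Integrable g1 ν := hC.intg H (gd_ff H hC ht.le hG N) hkc hk.pk.zero ht le_rfl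
  have i2 : Integrable g2 ν := hC.intg H (gd_ff H hC ht.le hG' N') hkc hk.pk.zero ht le_rfl
  have i3 : Integrable g3 ν := hC.intg H (hC.gd_HF H ht.le hG) hkc hk.pk.zero ht le_rfl
  have n1 : ∀ Y, 0 ≤ g1 Y := fun Y => mul_nonneg (hk.nonneg _) (by positivity)
  have n2 : ∀ Y, 0 ≤ g2 Y := fun Y => mul_nonneg (hk.nonneg _) (by positivity)
  have n3 : ∀ Y, 0 ≤ g3 Y := fun Y => by
    have := H.ref.half_le_vp H.eps_le z Y
    exact mul_nonneg (hk.nonneg _) (by positivity)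
  set g : E → ℝ := fun Y => 3 / ck * (g1 Y + g2 Y) + 6 / ck * A ^ 2 * g3 Y with hg
  have ig : Integrable g ν := ((i1.add i2).const_mul _).add (i3.const_mul _)
  have ng : ∀ Y, 0 ≤ g Y := fun Y => by
    have := n1 Y; have := n2 Y; have := n3 Y
    positivity
  have hCm : MeasurableSet {Y | aX T w z Y < (t / 8) ^ 2} :=
    (isOpen_lt (H.ref.continuous_aX z) continuous_const).measurableSet
  have hle : BB T w h₁ P ν {Y | aX T w z Y < (t / 8) ^ 2}
      (T.starProjection z' - T.starProjection z) ≤ ∫ Y, g Y ∂ν := by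
    unfold BB
    refine le_trans ?_ (setIntegral_le_integral (s := {Y | aX T w z Y < (t / 8) ^ 2}) ig
      (Eventually.of_forall ng))
    refine integral_mono_of_nonneg (Eventually.of_forall fun Y => by positivity)
      ig.integrableOn ?_
    filter_upwards [ae_restrict_mem hCm] with Y hY
    have hY' : aX T w z Y < (t / 8) ^ 2 := hY
    have hb : ‖bx T z Y‖ < t / 8 := H.ref.norm_bx_lt (by positivity) hY'
    have h1 := norm_perp_le (P := P) (h₁ := h₁) (z := z) (z' := z') H.ref H.eps_le N N' v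
      (hv Y hb.le)
    refine h1.trans ?_
    -- the kernels are bounded below
    have k1 : ck ≤ k (aX T w z Y / t ^ 2) := by
      refine hkl _ (div_nonneg (aX_nonneg _) (by positivity)) ?_
      rw [div_le_iff₀ (by positivity)]
      nlinarith
    have hb' : ‖bx T z' Y‖ ≤ t / 4 := by
      have e1 : bx T z' Y = bx T z Y - (T.starProjection z' - T.starProjection z) := by
        rw [bx_eq, bx_eq]; abel
      rw [e1]
      refine (norm_sub_le _ _).trans ?_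
      linarith
    have k2 : ck ≤ k (aX T w z' Y / t ^ 2) := by
      refine hkl _ (div_nonneg (aX_nonneg _) (by positivity)) ?_
      rw [div_le_iff₀ (by positivity)]
      unfold aX XX
      calc ‖bx T z' Y‖ ^ 2 ≤ (t / 4) ^ 2 := by gcongr
        _ = 1 / 16 * t ^ 2 := by ring
    have hvp := H.ref.half_le_vp H.eps_le z Y
    have q1 : 3 * ‖ff T w h₁ z P N Y‖ ^ 2 ≤ 3 / ck * g1 Y := by
      have : ck * ‖ff T w h₁ z P N Y‖ ^ 2 ≤ g1 Y := by
        simp only [hg1]; gcongr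
      rw [div_mul_eq_mul_div, le_div_iff₀ hck]
      nlinarith
    have q2 : 3 * ‖ff T w h₁ z' P N' Y‖ ^ 2 ≤ 3 / ck * g2 Y := by
      have : ck * ‖ff T w h₁ z' P N' Y‖ ^ 2 ≤ g2 Y := by
        simp only [hg2]; gcongr
      rw [div_mul_eq_mul_div, le_div_iff₀ hck]
      nlinarith
    have q3 : 3 * A ^ 2 * ‖om T w Y‖ ^ 2 ≤ 6 / ck * A ^ 2 * g3 Y := by
      have h2 : ck * (1 / 2 * ‖om T w Y‖ ^ 2) ≤ g3 Y := by
        simp only [hg3]
        exact mul_le_mul k1 (mul_le_mul_of_nonneg_right hvp (by positivity)) (by positivity)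
          (hck.le.trans k1)
      have h3 : 3 * ‖om T w Y‖ ^ 2 ≤ 6 / ck * g3 Y := by
        rw [div_mul_eq_mul_div, le_div_iff₀ hck]
        nlinarith
      calc 3 * A ^ 2 * ‖om T w Y‖ ^ 2 = A ^ 2 * (3 * ‖om T w Y‖ ^ 2) := by ring
        _ ≤ A ^ 2 * (6 / ck * g3 Y) := by gcongr
        _ = _ := by ring
    show _ ≤ 3 / ck * (g1 Y + g2 Y) + 6 / ck * A ^ 2 * g3 Y
    rw [mul_add]
    linarith
  refine hle.trans (le_of_eq ?_)
  have e1 : ∫ Y, g Y ∂ν = 3 / ck * (∫ Y, g1 Y ∂ν + ∫ Y, g2 Y ∂ν) +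
      6 / ck * A ^ 2 * ∫ Y, g3 Y ∂ν := by
    have e2 : ∫ Y, g Y ∂ν = ∫ Y, (3 / ck * (g1 Y + g2 Y)) ∂ν +
        ∫ Y, (6 / ck * A ^ 2 * g3 Y) ∂ν :=
      integral_add ((i1.add i2).const_mul _) (i3.const_mul _)
    rw [e2, integral_const_mul, integral_const_mul, integral_add i1 i2]
  rw [e1, ← pin_eq H hC hk ht hG N, ← pin_eq H hC hk ht hG' N']
  unfold HF
  have a1 := zpow_mul_cancel ht m (kI T w z ν k (fun Y => ‖ff T w h₁ z P N Y‖ ^ 2) t)
  have a2 := zpow_mul_cancel ht m (kI T w z' ν k (fun Y => ‖ff T w h₁ z' P N' Y‖ ^ 2) t)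
  have a3 := zpow_mul_cancel ht m (kI T w z ν k (fun Y => vp T w z Y * ‖om T w Y‖ ^ 2) t)
  have b1 : ∫ Y, g1 Y ∂ν = kI T w z ν k (fun Y => ‖ff T w h₁ z P N Y‖ ^ 2) t := rfl
  have b2 : ∫ Y, g2 Y ∂ν = kI T w z' ν k (fun Y => ‖ff T w h₁ z' P N' Y‖ ^ 2) t := rfl
  have b3 : ∫ Y, g3 Y ∂ν = kI T w z ν k (fun Y => vp T w z Y * ‖om T w Y‖ ^ 2) t := rfl
  rw [b1, b2, b3]
  linear_combination (3 / ck) * (-a1 - a2) - (6 / ck * A ^ 2) * a3

end Vale.Agent.P214.BCS
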