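import Vale.Agent.P214.BCS.Main
import Vale.Agent.P214.BCS.LowFin
import Vale.Agent.P214.DIM.Cover

/-!
# P214, Target B, block B3-FIN: cone splitting with different scales

The pinched scales of two centres are different, and the energy bound is known at a third, smaller
scale of the same window.
* `sub_le2` : subtraction of two centres with scales `s`, `s'`;
* `low_r` : lower bound of the directional energies at the scale `r`;
* `cone_fin` : the splitting;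
* `HF_le_HFb` : comparison of the heights at two centres;
* `flatPt_enlarge` : enlarging the scale (see also `BCS/Flat`).
-/

open Set Filter Topology MeasureTheory Metric
open scoped RealInnerProductSpace ContDiff

set_option linter.all false

namespace Vale.Agent.P214.BCS

open FV ODE FM ODEW

variable {E : Type*} [NormedAddCommGroup E] [InnerProductSpace ℝ E] [FiniteDimensional ℝ E]
  [MeasurableSpace E] [BorelSpace E]

variable {m : ℕ} {T : Submodule ℝ E} {w : E → E} {ε κ h₁ : ℝ} {G : Set E} {h : ℝ}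
  {ν : Measure E} {P : E → E →L[ℝ] E} {z z' : E} {k k' K : ℝ → ℝ} {t R : ℝ}

/-- **Cone splitting, exact form, with two scales.** -/
theorem sub_le2 (H : Adm T w ε κ h₁) (hC : CylF m T w h₁ G h ν P) (hk : Kern k k' K) (ht : 0 < t)
    {s s' : ℝ} (hs : t ≤ s) (hs' : t ≤ s')
    (hG : BallIn T G z s) (hG' : BallIn T G z' s') {ck : ℝ} (hck : 0 < ck)
    (hkl : ∀ s, 0 ≤ s → s ≤ 1 / 16 → ck ≤ k s)
    (hzz : ‖T.starProjection z' - T.starProjection z‖ ≤ t / 8) {v : ℝ} (hv0 : 0 ≤ v)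
    (hv : ∀ Y, ‖bx T z Y‖ ≤ t / 8 → ‖fderiv ℝ w Y‖ ^ 2 ≤ v) (N N' : ℝ) :
    BB T w h₁ P ν {Y | aX T w z Y < (t / 8) ^ 2} (T.starProjection z' - T.starProjection z) ≤
      3 / ck * (s ^ m * pinF m T w h₁ z k K P ν N s + s' ^ m * pinF m T w h₁ z' k K P ν N' s') +
        6 / ck * s ^ m * (|N - N'| + (|N| + |N'|) * v) ^ 2 * HF m T w z k ν s := by
  haveI := hC.fin
  have hkc := hk.pk.continuous
  have hs0 : 0 < s := ht.trans_le hs
  have hs0' : 0 < s' := ht.trans_le hs'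
  set A : ℝ := |N - N'| + (|N| + |N'|) * v with hA
  have hA0 : 0 ≤ A := by positivity
  set g1 : E → ℝ := fun Y => k (aX T w z Y / s ^ 2) * ‖ff T w h₁ z P N Y‖ ^ 2 with hg1
  set g2 : E → ℝ := fun Y => k (aX T w z' Y / s' ^ 2) * ‖ff T w h₁ z' P N' Y‖ ^ 2 with hg2
  set g3 : E → ℝ := fun Y => k (aX T w z Y / s ^ 2) * (vp T w z Y * ‖om T w Y‖ ^ 2) with hg3
  have i1 : Integrable g1 ν := hC.intg H (gd_ff H hC hs0.le hG N) hkc hk.pk.zero hs0 le_rfl
  have i2 : Integrable g2 ν := hC.intg H (gd_ff H hC hs0'.le hG' N') hkc hk.pk.zero hs0' le_rfl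
  have i3 : Integrable g3 ν := hC.intg H (hC.gd_HF H hs0.le hG) hkc hk.pk.zero hs0 le_rfl
  have n1 : ∀ Y, 0 ≤ g1 Y := fun Y => mul_nonneg (hk.nonneg _) (by positivity)
  have n2 : ∀ Y, 0 ≤ g2 Y := fun Y => mul_nonneg (hk.nonneg _) (by positivity)
  have n3 : ∀ Y, 0 ≤ g3 Y := fun Y => by
    have := H.ref.half_le_vp H.eps_le z Y
    exact mul_nonneg (hk.nonneg _) (by positivity)
  set g : E → ℝ := fun Y => 3 / ck * (g1 Y + g2 Y) + 6 / ck * A ^ 2 * g3 Y with hg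
  have ig : Integrable g ν := ((i1.add i2).const_mul _).add (i3.const_mul _)
  have ng : ∀ Y, 0 ≤ g Y := fun Y => by
    have := n1 Y; have := n2 Y; have := n3 Y
    positivity
  have hCm : MeasurableSet {Y | aX T w z Y < (t / 8) ^ 2} :=
    (isOpen_lt (H.ref.continuous_aX z) continuous_const).measurableSet
  have hle : BB T w h₁ P ν {Y | aX T w z Y < (t / 8) ^ 2}
      (T.starProjection z' - T.starProjection z) ≤ ∫ Y, g Y ∂ν := by
    unfold BB
    refine le_trans ?_ (setIntegral_le_integral (s := {Y | aX T w z Y < (t / 8) ^ 2}) ig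
      (Eventually.of_forall ng))
    refine integral_mono_of_nonneg (Eventually.of_forall fun Y => by positivity)
      ig.integrableOn ?_
    filter_upwards [ae_restrict_mem hCm] with Y hY
    have hY' : aX T w z Y < (t / 8) ^ 2 := hY
    have hb : ‖bx T z Y‖ < t / 8 := H.ref.norm_bx_lt (by positivity) hY'
    have h1 := norm_perp_le (P := P) (h₁ := h₁) (z := z) (z' := z') H.ref H.eps_le N N' v
      (hv Y hb.le)
    refine h1.trans ?_
    -- the kernels are bounded below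
    have k1 : ck ≤ k (aX T w z Y / s ^ 2) := by
      refine hkl _ (div_nonneg (aX_nonneg _) (by positivity)) ?_
      rw [div_le_iff₀ (by positivity)]
      nlinarith
    have hb' : ‖bx T z' Y‖ ≤ t / 4 := by
      have e1 : bx T z' Y = bx T z Y - (T.starProjection z' - T.starProjection z) := by
        rw [bx_eq, bx_eq]; abel
      rw [e1]
      refine (norm_sub_le _ _).trans ?_
      linarith
    have k2 : ck ≤ k (aX T w z' Y / s' ^ 2) := by
      refine hkl _ (div_nonneg (aX_nonneg _) (by positivity)) ?_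
      rw [div_le_iff₀ (by positivity)]
      unfold aX XX
      calc ‖bx T z' Y‖ ^ 2 ≤ (t / 4) ^ 2 := by gcongr
        _ = 1 / 16 * t ^ 2 := by ring
        _ ≤ 1 / 16 * s' ^ 2 := by gcongr
    have hvp := H.ref.half_le_vp H.eps_le z Y
    have q1 : 3 * ‖ff T w h₁ z P N Y‖ ^ 2 ≤ 3 / ck * g1 Y := by
      have : ck * ‖ff T w h₁ z P N Y‖ ^ 2 ≤ g1 Y := by
        simp only [hg1]; gcongr
      rw [div_mul_eq_mul_div, le_div_iff₀ hck]
      nlinarith
    have q2 : 3 * ‖ff T w h₁ z' P N' Y‖ ^ 2 ≤ 3 / ck * g2 Y := by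
      have : ck * ‖ff T w h₁ z' P N' Y‖ ^ 2 ≤ g2 Y := by
        simp only [hg2]; gcongr
      rw [div_mul_eq_mul_div, le_div_iff₀ hck]
      nlinarith
    have q3 : 3 * A ^ 2 * ‖om T w Y‖ ^ 2 ≤ 6 / ck * A ^ 2 * g3 Y := by
      have h2 : ck * (1 / 2 * ‖om T w Y‖ ^ 2) ≤ g3 Y := by
        simp only [hg3]
        exact mul_le_mul k1 (mul_le_mul_of_nonneg_right hvp (by positivity)) (by positivity)
          (hck.le.trans k1)
      have h3 : 3 * ‖om T w Y‖ ^ 2 ≤ 6 / ck * g3 Y := by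
        rw [div_mul_eq_mul_div, le_div_iff₀ hck]
        nlinarith
      calc 3 * A ^ 2 * ‖om T w Y‖ ^ 2 = A ^ 2 * (3 * ‖om T w Y‖ ^ 2) := by ring
        _ ≤ A ^ 2 * (6 / ck * g3 Y) := by gcongr
        _ = _ := by ring
    show _ ≤ 3 / ck * (g1 Y + g2 Y) + 6 / ck * A ^ 2 * g3 Y
    rw [mul_add]
    linarith
  refine hle.trans (le_of_eq ?_)
  have e1 : ∫ Y, g Y ∂ν = 3 / ck * (∫ Y, g1 Y ∂ν + ∫ Y, g2 Y ∂ν) +
      6 / ck * A ^ 2 * ∫ Y, g3 Y ∂ν := by
    have e2 : ∫ Y, g Y ∂ν = ∫ Y, (3 / ck * (g1 Y + g2 Y)) ∂ν +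
        ∫ Y, (6 / ck * A ^ 2 * g3 Y) ∂ν :=
      integral_add ((i1.add i2).const_mul _) (i3.const_mul _)
    rw [e2, integral_const_mul, integral_const_mul, integral_add i1 i2]
  rw [e1, ← pin_eq H hC hk hs0 hG N, ← pin_eq H hC hk hs0' hG' N']
  unfold HF
  have a1 := zpow_mul_cancel hs0 m (kI T w z ν k (fun Y => ‖ff T w h₁ z P N Y‖ ^ 2) s)
  have a2 := zpow_mul_cancel hs0' m (kI T w z' ν k (fun Y => ‖ff T w h₁ z' P N' Y‖ ^ 2) s')
  have a3 := zpow_mul_cancel hs0 m (kI T w z ν k (fun Y => vp T w z Y * ‖om T w Y‖ ^ 2) s)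
  have b1 : ∫ Y, g1 Y ∂ν = kI T w z ν k (fun Y => ‖ff T w h₁ z P N Y‖ ^ 2) s := rfl
  have b2 : ∫ Y, g2 Y ∂ν = kI T w z' ν k (fun Y => ‖ff T w h₁ z' P N' Y‖ ^ 2) s' := rfl
  have b3 : ∫ Y, g3 Y ∂ν = kI T w z ν k (fun Y => vp T w z Y * ‖om T w Y‖ ^ 2) s := rfl
  rw [b1, b2, b3]
  linear_combination (3 / ck) * (-a1 - a2) - (6 / ck * A ^ 2) * a3

section low

variable {B σ r : ℝ} (H : Adm T w ε κ h₁) (hC : CylF m T w h₁ G h ν P)

include H hC

/-- the directional energy is monotone in the radius -/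
lemma BB_mono (ht : 0 < t) (hG : BallIn T G z t) (hr : 0 < r) (hrt : r ≤ t) (a : E) :
    BB T w h₁ P ν {Y | aX T w z Y < r ^ 2} a ≤ BB T w h₁ P ν {Y | aX T w z Y < t ^ 2} a := by
  unfold BB
  refine setIntegral_mono_set (integrableOn_gd H hC (gd_dirF H hC ht.le hG a))
    (Eventually.of_forall fun Y => by positivity) ?_
  refine (show {Y | aX T w z Y < r ^ 2} ⊆ {Y | aX T w z Y < t ^ 2} from fun Y hY => ?_).eventuallyLE
  have h1 : aX T w z Y < r ^ 2 := hY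
  exact h1.trans_le (by gcongr)

/-- lower bound of the directional energies at one scale -/
theorem low_r (hmin : MinimalOver T w G) (hh : h ≤ 1) (hκr : κ * r ≤ eps0)
    (hs : Slp T w z κ r) (hG : BallIn T G z (2 * r)) (hk : KB k k' K B) (hr : 0 < r)
    (hσ : 0 ≤ σ) (hu : ∀ᵐ Y ∂ν, aX T w z Y < r ^ 2 → ‖co T Y‖ ≤ σ * r) {c₀ D : ℝ}
    (hc₀ : 0 ≤ c₀) (h0 : c₀ * HF m T w z k ν r ≤ jF m T w h₁ z K P ν r)
    (hD : HF m T w z k ν (2 * r) ≤ D * HF m T w z k ν r)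
    (hs1 : 2 * B * cB m (Module.finrank ℝ E) * (κ * r) ^ 2 ≤ c₀ / 2)
    (hs2 : cB m (Module.finrank ℝ E) * σ * (κ * r) ≤ 1)
    (hs3 : 20 * m * B * (κ * r) ^ 2 * (2 ^ (m + 1) * B ^ 2 * D) ≤ c₀ / 4)
    {ι : Type*} [Fintype ι] (e : OrthonormalBasis ι ℝ T) :
    c₀ / (24 * B) * (r ^ m / r ^ 2) * HF m T w z k ν r ≤
      ∑ i, BB T w h₁ P ν {Y | aX T w z Y < r ^ 2} (e i) := by
  have hB0 : 0 < B := lt_of_lt_of_le one_pos hk.one
  have hG1 : BallIn T G z r := fun x hx hx2 => hG x hx (by linarith)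
  have hH0 := hC.HF_nonneg (z := z) H hk.kern hr
  have hg0 := hC.gF_nonneg (z := z) H hk.kern hr
  have hjg := CylF.abs_jF_sub_gF_le H hC hmin hh hκr hs hG hk hr (by linarith) hσ hu
  have hg := CylF.gF_le H hC hmin hh hκr hs hG hk hr (by linarith)
  have hXu : XuF m T w z ν r ≤ 2 ^ (m + 1) * B ^ 2 * D * HF m T w z k ν r := by
    have h1 := XuF_le_HF H hC hk hr hG
    calc _ ≤ _ := h1
      _ ≤ 2 ^ (m + 1) * B ^ 2 * (D * HF m T w z k ν r) := by gcongr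
      _ = _ := by ring
  have hXe := low_int (z := z) H hC hr hG1 e
  have hjg' : |jF m T w h₁ z K P ν r - gF m T w z K P ν r| ≤
      2 * B * cB m (Module.finrank ℝ E) * (κ * r) ^ 2 * HF m T w z k ν r +
        1 * gF m T w z K P ν r :=
    hjg.trans (by gcongr)
  have key := low_real (m := m) (s := κ * r) hH0 hg0 hB0 h0 hjg' hs1 hg
    (S := ∑ i, DirE m T w h₁ z P ν r (e i)) (Xu := XuF m T w z ν r) hXe hXu hs3
  have e1 : ∑ i, DirE m T w h₁ z P ν r (e i) = r ^ (2 - (m : ℤ)) *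
      ∑ i, BB T w h₁ P ν {Y | aX T w z Y < r ^ 2} (e i) := by
    rw [Finset.mul_sum]; rfl
  rw [e1] at key
  set S : ℝ := ∑ i, BB T w h₁ P ν {Y | aX T w z Y < r ^ 2} (e i) with hS
  have e2 : r ^ (2 - (m : ℤ)) = r ^ 2 / r ^ m := by
    rw [zpow_sub₀ hr.ne']; norm_cast
  rw [e2] at key
  have h6 : 0 < r ^ m / r ^ 2 := by positivity
  calc c₀ / (24 * B) * (r ^ m / r ^ 2) * HF m T w z k ν r =
      (1 / (6 * B) * (r ^ m / r ^ 2)) * (c₀ / 4 * HF m T w z k ν r) := by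
        field_simp; ring
    _ ≤ (1 / (6 * B) * (r ^ m / r ^ 2)) * (6 * B * (r ^ 2 / r ^ m * S)) := by
        gcongr
    _ = S := by
        field_simp

/-- the heights at two centres -/
lemma HF_le_HFb (hk : KB k k' K B) (ht : 0 < t) {b : ℝ} (hb1 : 1 ≤ b)
    (hG : BallIn T G z ((2 * b + 1) * t)) {s' : ℝ} (hs' : t ≤ s') (hs2 : s' ≤ b * t)
    (hzz : ‖T.starProjection z' - T.starProjection z‖ ≤ t / 8) :
    HF m T w z' k ν s' ≤ 4 * (2 * b + 1) ^ m * B ^ 3 * HF m T w z k ν ((2 * b + 1) * t) := by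
  have hc0 : 0 < 2 * b + 1 := by linarith
  have h5t : 0 < (2 * b + 1) * t := by positivity
  have hs0 : 0 < s' := ht.trans_le hs'
  have hB0 : 0 ≤ B := zero_le_one.trans hk.one
  have i1 := hC.intg H (hC.gd_HF H h5t.le hG) hk.kern.pk.continuous hk.kern.pk.zero h5t le_rfl
  have hnn : ∀ Y, 0 ≤ k (aX T w z Y / ((2 * b + 1) * t) ^ 2) * (vp T w z Y * ‖om T w Y‖ ^ 2) :=
    fun Y => by
      have := H.ref.half_le_vp H.eps_le z Y
      exact mul_nonneg (hk.kern.nonneg _) (by positivity)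
  have key : kI T w z' ν k (fun Y => vp T w z' Y * ‖om T w Y‖ ^ 2) s' ≤
      4 * B ^ 3 * kI T w z ν k (fun Y => vp T w z Y * ‖om T w Y‖ ^ 2) ((2 * b + 1) * t) := by
    unfold kI
    rw [← integral_const_mul]
    refine integral_mono_of_nonneg (Eventually.of_forall fun Y => ?_) (i1.const_mul _)
      (Eventually.of_forall fun Y => ?_)
    · have := H.ref.half_le_vp H.eps_le z' Y
      exact mul_nonneg (hk.kern.nonneg _) (by positivity)
    · simp only []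
      have hv1 := H.ref.half_le_vp H.eps_le z Y
      have hv2 : vp T w z' Y ≤ 1 := Ref.vp_le_one z' Y
      have hv3 := H.ref.half_le_vp H.eps_le z' Y
      by_cases hc : 1 ≤ aX T w z' Y / s' ^ 2
      · rw [hk.kern.pk.zero _ hc, zero_mul]
        exact mul_nonneg (by positivity) (hnn Y)
      · replace hc := not_le.1 hc
        rw [div_lt_one (by positivity)] at hc
        have hb' : ‖bx T z' Y‖ < s' := by
          unfold aX XX at hc
          exact lt_of_pow_lt_pow_left₀ 2 hs0.le hc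
        have hb : ‖bx T z Y‖ < (b + 1 / 8) * t := by
          have e1 : bx T z Y = bx T z' Y + (T.starProjection z' - T.starProjection z) := by
            rw [bx_eq, bx_eq]; abel
          rw [e1]
          refine (norm_add_le _ _).trans_lt ?_
          linarith
        have hs0' : 0 ≤ aX T w z Y / ((2 * b + 1) * t) ^ 2 :=
          div_nonneg (aX_nonneg _) (by positivity)
        have hs1 : aX T w z Y / ((2 * b + 1) * t) ^ 2 < 1 / 4 := by
          rw [div_lt_iff₀ (by positivity)]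
          unfold aX XX
          calc ‖bx T z Y‖ ^ 2 < ((b + 1 / 8) * t) ^ 2 := by gcongr
            _ ≤ ((b + 1 / 2) * t) ^ 2 := by gcongr; norm_num
            _ = _ := by ring
        have h1 := hk.Klow _ hs0' hs1
        have h2 := hk.Kk _ hs0'
        have h3 : 1 ≤ B ^ 2 * k (aX T w z Y / ((2 * b + 1) * t) ^ 2) := by
          calc (1 : ℝ) ≤ B * K (aX T w z Y / ((2 * b + 1) * t) ^ 2) := h1
            _ ≤ B * (B * k (aX T w z Y / ((2 * b + 1) * t) ^ 2)) := by gcongr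
            _ = _ := by ring
        have h4 : k (aX T w z' Y / s' ^ 2) ≤ B := hk.kB _ (div_nonneg (aX_nonneg _) (by positivity))
        have h7 : vp T w z' Y * ‖om T w Y‖ ^ 2 ≤ 2 * (vp T w z Y * ‖om T w Y‖ ^ 2) := by
          have : vp T w z' Y ≤ 2 * vp T w z Y := by linarith
          calc vp T w z' Y * ‖om T w Y‖ ^ 2 ≤ (2 * vp T w z Y) * ‖om T w Y‖ ^ 2 := by gcongr
            _ = _ := by ring
        have h8 : 0 ≤ vp T w z Y * ‖om T w Y‖ ^ 2 := by positivity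
        have h9 : 0 ≤ vp T w z' Y * ‖om T w Y‖ ^ 2 := by positivity
        calc k (aX T w z' Y / s' ^ 2) * (vp T w z' Y * ‖om T w Y‖ ^ 2) ≤
            B * (2 * (vp T w z Y * ‖om T w Y‖ ^ 2)) := by gcongr
          _ = B * (1 * (2 * (vp T w z Y * ‖om T w Y‖ ^ 2))) := by ring
          _ ≤ B * ((B ^ 2 * k (aX T w z Y / ((2 * b + 1) * t) ^ 2)) *
              (2 * (vp T w z Y * ‖om T w Y‖ ^ 2))) := by gcongr
          _ = 2 * (B ^ 3 * (k (aX T w z Y / ((2 * b + 1) * t) ^ 2) *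
              (vp T w z Y * ‖om T w Y‖ ^ 2))) := by ring
          _ ≤ 4 * (B ^ 3 * (k (aX T w z Y / ((2 * b + 1) * t) ^ 2) *
              (vp T w z Y * ‖om T w Y‖ ^ 2))) := by
              have : 0 ≤ B ^ 3 * (k (aX T w z Y / ((2 * b + 1) * t) ^ 2) *
                (vp T w z Y * ‖om T w Y‖ ^ 2)) := mul_nonneg (by positivity) (hnn Y)
              linarith
          _ = _ := by ring
  unfold HF
  have e1 : ((2 * b + 1) * t) ^ (-(m : ℤ)) = ((2 * b + 1) ^ m)⁻¹ * t ^ (-(m : ℤ)) := by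
    rw [mul_zpow]; simp [zpow_neg]
  have e2 : s' ^ (-(m : ℤ)) ≤ t ^ (-(m : ℤ)) := by
    rw [zpow_neg, zpow_neg, zpow_natCast, zpow_natCast]
    gcongr
  rw [e1]
  have h0 : 0 ≤ t ^ (-(m : ℤ)) := by positivity
  have hnn' : 0 ≤ kI T w z' ν k (fun Y => vp T w z' Y * ‖om T w Y‖ ^ 2) s' := by
    unfold kI
    refine integral_nonneg fun Y => ?_
    have := H.ref.half_le_vp H.eps_le z' Y
    exact mul_nonneg (hk.kern.nonneg _) (by positivity)
  calc s' ^ (-(m : ℤ)) * kI T w z' ν k (fun Y => vp T w z' Y * ‖om T w Y‖ ^ 2) s' ≤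
      t ^ (-(m : ℤ)) * (4 * B ^ 3 *
        kI T w z ν k (fun Y => vp T w z Y * ‖om T w Y‖ ^ 2) ((2 * b + 1) * t)) := by
        gcongr
    _ = _ := by
        field_simp

end low

/-- the constant of `cone_fin` -/
noncomputable def cF (m : ℕ) (b B ck c₀ D : ℝ) : ℝ := 5 * (16 * b) ^ m * m * B * D / (ck * c₀)

lemma cone_real {m : ℕ} {b B ck c₀ D X δ t r : ℝ} (hb : 0 < b) (hB : 0 < B) (hck : 0 < ck)
    (hc₀ : 0 < c₀) (hD : 0 ≤ D) (hX : 0 < X) (hδ : 0 ≤ δ) (ht : 0 < t) (hr : 0 < r)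
    (hr1 : t ≤ 16 * r) (hr2 : r ≤ t / 8) :
    m * (12 * b ^ m / ck * t ^ m * δ * (D * X)) ≤
      c₀ / (24 * B) * (r ^ m / r ^ 2) * X * (cF m b B ck c₀ D * δ * t ^ 2) := by
  have htr : t ^ m ≤ 16 ^ m * r ^ m := by rw [← mul_pow]; gcongr
  have hr2' : 64 * r ^ 2 ≤ t ^ 2 := by nlinarith
  have e3 : 288 * (16 * b) ^ m * m * B * D / (ck * c₀) * δ * r ^ 2 =
      (9 / 2) * ((16 * b) ^ m * m * B * D / (ck * c₀)) * δ * (64 * r ^ 2) := by ring
  have e4 : cF m b B ck c₀ D * δ * t ^ 2 =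
      5 * ((16 * b) ^ m * m * B * D / (ck * c₀)) * δ * t ^ 2 := by unfold cF; ring
  have h8 : 288 * (16 * b) ^ m * m * B * D / (ck * c₀) * δ * r ^ 2 ≤
      cF m b B ck c₀ D * δ * t ^ 2 := by
    rw [e3, e4]
    gcongr
    norm_num
  calc m * (12 * b ^ m / ck * t ^ m * δ * (D * X)) ≤
      m * (12 * b ^ m / ck * (16 ^ m * r ^ m) * δ * (D * X)) := by gcongr
    _ = c₀ / (24 * B) * (r ^ m / r ^ 2) * X *
        (288 * (16 * b) ^ m * m * B * D / (ck * c₀) * δ * r ^ 2) := by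
        rw [mul_pow]
        field_simp
        ring
    _ ≤ c₀ / (24 * B) * (r ^ m / r ^ 2) * X * (cF m b B ck c₀ D * δ * t ^ 2) := by
        gcongr

lemma cone_real2 {m : ℕ} {b ck δ t s s' D X Y p p' A2 BBa : ℝ} (hb : 0 < b) (hck : 0 < ck)
    (ht : 0 < t) (hs : 0 < s) (hs' : 0 < s') (hst : s ≤ b * t) (hst' : s' ≤ b * t) (hY : 0 ≤ Y)
    (hδ : 0 ≤ δ) (hp : p ≤ δ * Y) (hp' : p' ≤ δ * Y) (hA0 : 0 ≤ A2) (hA : A2 ≤ δ)
    (hYX : Y ≤ D * X)
    (h : BBa ≤ 3 / ck * (s ^ m * p + s' ^ m * p') + 6 / ck * s ^ m * A2 * Y) :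
    BBa ≤ 12 * b ^ m / ck * t ^ m * δ * (D * X) := by
  have f1 : s ^ m ≤ b ^ m * t ^ m := by rw [← mul_pow]; gcongr
  have f2 : s' ^ m ≤ b ^ m * t ^ m := by rw [← mul_pow]; gcongr
  have g1 : s ^ m * p ≤ (b ^ m * t ^ m) * (δ * Y) := by
    calc s ^ m * p ≤ s ^ m * (δ * Y) := by gcongr
      _ ≤ _ := by gcongr
  have g2 : s' ^ m * p' ≤ (b ^ m * t ^ m) * (δ * Y) := by
    calc s' ^ m * p' ≤ s' ^ m * (δ * Y) := by gcongr
      _ ≤ _ := by gcongr
  have e1 : 3 / ck * (s ^ m * p + s' ^ m * p') ≤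
      3 / ck * ((b ^ m * t ^ m) * (δ * Y) + (b ^ m * t ^ m) * (δ * Y)) := by gcongr
  have e2 : 6 / ck * s ^ m * A2 * Y ≤ 6 / ck * (b ^ m * t ^ m) * δ * Y := by gcongr
  calc _ ≤ 3 / ck * (s ^ m * p + s' ^ m * p') + 6 / ck * s ^ m * A2 * Y := h
    _ ≤ 3 / ck * ((b ^ m * t ^ m) * (δ * Y) + (b ^ m * t ^ m) * (δ * Y)) +
        6 / ck * (b ^ m * t ^ m) * δ * Y := add_le_add e1 e2
    _ = 12 * b ^ m / ck * t ^ m * δ * Y := by ring
    _ ≤ _ := by gcongr

/-- **One-scale cone splitting with different scales.** `r ∈ [t/16, t/8]` is a scale at which the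
frequency is `≥ c₀`, `s`, `s' ∈ [t, b t]` are the pinched scales of the two centres. -/
theorem cone_fin {B σ r b : ℝ} (H : Adm T w ε κ h₁) (hC : CylF m T w h₁ G h ν P)
    (hmin : MinimalOver T w G) (hh : h ≤ 1) (hk : KB k k' K B) (hm : 1 ≤ m) (ht : 0 < t)
    (hb : 1 ≤ b) (hr1 : t ≤ 16 * r) (hr2 : r ≤ t / 8) (hG : BallIn T G z (b * t))
    (hκr : κ * r ≤ eps0) (hs : Slp T w z κ r) (hσ : 0 ≤ σ)
    (hu : ∀ᵐ Y ∂ν, aX T w z Y < r ^ 2 → ‖co T Y‖ ≤ σ * r) {c₀ D : ℝ}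
    (hc₀ : 0 < c₀) (h0 : c₀ * HF m T w z k ν r ≤ jF m T w h₁ z K P ν r)
    (hD : HF m T w z k ν (2 * r) ≤ D * HF m T w z k ν r)
    (hs1 : 2 * B * cB m (Module.finrank ℝ E) * (κ * r) ^ 2 ≤ c₀ / 2)
    (hs2 : cB m (Module.finrank ℝ E) * σ * (κ * r) ≤ 1)
    (hs3 : 20 * m * B * (κ * r) ^ 2 * (2 ^ (m + 1) * B ^ 2 * D) ≤ c₀ / 4)
    (hHF : 0 < HF m T w z k ν r) {ck : ℝ} (hck : 0 < ck)
    (hkl : ∀ s, 0 ≤ s → s ≤ 1 / 16 → ck ≤ k s) {v : ℝ} (hv0 : 0 ≤ v)
    (hv : ∀ Y, ‖bx T z Y‖ ≤ t / 8 → ‖fderiv ℝ w Y‖ ^ 2 ≤ v)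
    {s N δ : ℝ} (hts : t ≤ s) (hs2t : s ≤ b * t)
    (hDs : HF m T w z k ν s ≤ D * HF m T w z k ν r)
    (hp : pinF m T w h₁ z k K P ν N s ≤ δ * HF m T w z k ν s) :
    ∃ L : Submodule ℝ E, L ≤ T ∧ Module.finrank ℝ L ≤ m - 1 ∧
      ∀ (z' : E) (N' s' : ℝ), t ≤ s' → s' ≤ b * t → BallIn T G z' s' →
        ‖T.starProjection z' - T.starProjection z‖ ≤ t / 8 →
        pinF m T w h₁ z' k K P ν N' s' ≤ δ * HF m T w z k ν s →
        (|N - N'| + (|N| + |N'|) * v) ^ 2 ≤ δ →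
        ‖(T.starProjection z' - T.starProjection z) -
          L.starProjection (T.starProjection z' - T.starProjection z)‖ ≤
            √(cF m b B ck c₀ D * δ) * t := by
  have hr : 0 < r := by linarith
  have hb0 : 0 < b := by linarith
  have hB0 : 0 < B := lt_of_lt_of_le one_pos hk.one
  have htb : t ≤ b * t := by nlinarith
  have hGr : BallIn T G z (2 * r) := fun x hx hx2 => hG x hx (by linarith)
  have hGt : BallIn T G z (t / 8) := fun x hx hx2 => hG x hx (by linarith)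
  have hGs : BallIn T G z s := fun x hx hx2 => hG x hx (by linarith)
  have hE0 := low_r H hC hmin hh hκr hs hGr hk hr hσ hu hc₀.le h0 hD hs1 hs2 hs3
    (stdOrthonormalBasis ℝ T)
  have hE : c₀ / (24 * B) * (r ^ m / r ^ 2) * HF m T w z k ν r ≤
      ∑ i, BB T w h₁ P ν {Y | aX T w z Y < (t / 8) ^ 2} (stdOrthonormalBasis ℝ T i) :=
    hE0.trans (Finset.sum_le_sum fun i _ => BB_mono H hC (by positivity) hGt hr hr2 _)
  obtain ⟨L, hL, hLd, hLa⟩ := exists_split H hC hm {Y | aX T w z Y < (t / 8) ^ 2} _ hE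
  refine ⟨L, hL, hLd, fun z' N' s' hs't hs'2 hG' hzz hp' hN => ?_⟩
  have haT : T.starProjection z' - T.starProjection z ∈ T :=
    T.sub_mem (T.starProjection_apply_mem z') (T.starProjection_apply_mem z)
  have h1 := hLa _ haT
  have h2 := sub_le2 H hC hk.kern ht hts hs't hGs hG' hck hkl hzz hv0 hv N N'
  have hs0 : 0 < s := ht.trans_le hts
  have hs0' : 0 < s' := ht.trans_le hs't
  have hδ : 0 ≤ δ := (sq_nonneg _).trans hN
  have hHs := hC.HF_nonneg (z := z) H hk.kern hs0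
  have hDX : 0 ≤ D * HF m T w z k ν r := hHs.trans hDs
  have hD0 : 0 ≤ D := nonneg_of_mul_nonneg_left hDX hHF
  have h3 := cone_real2 hb0 hck ht hs0 hs0' hs2t hs'2 hHs hδ hp hp' (sq_nonneg _) hN hDs h2
  have h4 := cone_real (m := m) hb0 hB0 hck hc₀ hD0 hHF hδ ht hr hr1 hr2
  have h6 : 0 < c₀ / (24 * B) * (r ^ m / r ^ 2) * HF m T w z k ν r := by positivity
  have h7 : ‖(T.starProjection z' - T.starProjection z) -
      L.starProjection (T.starProjection z' - T.starProjection z)‖ ^ 2 ≤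
        cF m b B ck c₀ D * δ * t ^ 2 := by
    refine le_of_mul_le_mul_left (h1.trans (le_trans ?_ h4)) h6
    exact mul_le_mul_of_nonneg_left h3 (Nat.cast_nonneg _)
  have h8 := Real.le_sqrt_of_sq_le h7
  rwa [Real.sqrt_mul' _ (by positivity), Real.sqrt_sq ht.le] at h8

/-- enlarging the scale -/
lemma flatPt_enlarge {E : Type*} [NormedAddCommGroup E] [InnerProductSpace ℝ E]
    [FiniteDimensional ℝ E] {d : ℕ} {ρ A t t' : ℝ} {S : Set E} {x : E} (hA : 0 < A) (hρ : 0 ≤ ρ)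
    (h1 : t ≤ t') (h2 : t' ≤ A * t) (h : DIM.FlatPt d (ρ / A) t' S x) : DIM.FlatPt d ρ t S x := by
  obtain ⟨L, hL, h3⟩ := h
  refine ⟨L, hL, fun y hy hd => (h3 y hy (hd.trans h1)).trans ?_⟩
  calc ρ / A * t' ≤ ρ / A * (A * t) := by gcongr
    _ = ρ * t := by field_simp

end Vale.Agent.P214.BCS
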